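import Vale.Agent.P024.H377.GalB

set_option autoImplicit false

/-!
# P024, (T3), block GAL, part C : the Galois theory of the field of level `n`
-/

namespace Vale.Agent.P024.H377

open IntermediateField NumberField
open Vale.Agent.P024 Vale.Agent.P024.T3

/-- **[T3-GAL]** -/
theorem t3_gal {E : Type*} [Field E] [CharZero E] [IsGalois ℚ E]
    (V : Subgroup (E ≃ₐ[ℚ] E)) [hV : V.Normal] (hVo : IsOpen (V : Set (E ≃ₐ[ℚ] E)))
    (c : E ≃ₐ[ℚ] E) (hc : M4.IsCC c) {p : ℕ} (hp : p.Prime) (hp2 : p ≠ 2)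
    (hcyc : ∀ (n : ℕ) (ζ : E), IsPrimitiveRoot ζ (p ^ n) → ∀ a : ℕ, a.Coprime p →
      ∃ σ ∈ V, σ ζ = ζ ^ a)
    (n : ℕ) (hn : 0 < n) {ζ : E} (hζ : IsPrimitiveRoot ζ (p ^ n)) :
    ∃ (a h : ℕ) (S G₀ : E ≃ₐ[ℚ] E), T3.Lvl V p n ζ a S G₀ ∧ S⁻¹ * c ∈ V ∧
      ∃ (_ : NumberField (IntermediateField.fixedField (T3.WW V ζ)))
        (_ : IsGalois ℚ (IntermediateField.fixedField (T3.WW V ζ)))
        (ι : ((E ≃ₐ[ℚ] E) ⧸ V) →* ((IntermediateField.fixedField (T3.WW V ζ)) ≃ₐ[ℚ]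
          (IntermediateField.fixedField (T3.WW V ζ))))
        (g : (IntermediateField.fixedField (T3.WW V ζ)) ≃ₐ[ℚ]
          (IntermediateField.fixedField (T3.WW V ζ))),
        (∀ s : E ≃ₐ[ℚ] E, s ζ = ζ → ∀ x,
          ((ι (QuotientGroup.mk s) x : IntermediateField.fixedField (T3.WW V ζ)) : E) = s x) ∧
        (∀ x, ((g x : IntermediateField.fixedField (T3.WW V ζ)) : E) = G₀ x) ∧
        Function.Injective ι ∧ (∀ t, g * ι t = ι t * g) ∧ 0 < h ∧ g ^ (2 * h) = 1 ∧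
        (∀ i, 0 < i → i < 2 * h → g ^ i ∉ ι.range) ∧
        (∃ w0 : InfinitePlace (IntermediateField.fixedField (T3.WW V ζ)),
          (ι (QuotientGroup.mk c) * g ^ h) • w0 = w0) ∧
        (p : ℤ) ^ n ∣ (a : ℤ) ^ h + 1 ∧
        (∀ (v : (𝓞 (IntermediateField.fixedField (T3.WW V ζ)))ˣ) (k : ℕ), v ^ (p ^ k) = 1 →
          H903.uact (ι (QuotientGroup.mk c)) v = v) := by
  classical
  have hpos : 0 < p ^ n := pow_pos hp.pos n
  obtain ⟨a, h, hh, hac, hgen, h2h, hmin, hdvd⟩ := prim_root hp hp2 hn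
  obtain ⟨G₀, hG, hGζ⟩ := hcyc n ζ hζ a hac
  have hGpow : ∀ i : ℕ, (G₀ ^ i) ζ = ζ ^ (a ^ i) := by
    intro i
    induction i with
    | zero => simp
    | succ i ih => rw [pow_succ', AlgEquiv.mul_apply, ih, map_pow, hGζ, ← pow_mul, pow_succ']
  -- the element `S`
  have hζ0 : ζ ≠ 0 := hζ.ne_zero (hpos.ne')
  have hm1 : ζ ^ (p ^ n - 1) = ζ⁻¹ := by
    apply eq_inv_of_mul_eq_one_left
    rw [← pow_succ, Nat.sub_add_cancel hpos, hζ.pow_eq_one]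
  have hco : (p ^ n - 1).Coprime p := by
    rw [Nat.coprime_comm, hp.coprime_iff_not_dvd]
    intro h1
    have h2 : p ∣ p ^ n := dvd_pow_self p hn.ne'
    have h3 : p ∣ 1 := by
      have := Nat.dvd_sub h2 h1
      rwa [Nat.sub_sub_self hpos] at this
    exact hp.one_lt.ne' (Nat.dvd_one.1 h3)
  obtain ⟨v, hv, hvζ⟩ := hcyc n ζ hζ _ hco
  rw [hm1] at hvζ
  have hcζ : c ζ = ζ⁻¹ := cc_root hc hpos hζ.pow_eq_one
  set S : E ≃ₐ[ℚ] E := c * v with hS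
  have hSζ : S ζ = ζ := by
    rw [hS, AlgEquiv.mul_apply, hvζ, map_inv₀, hcζ, inv_inv]
  have hSc : S⁻¹ * c ∈ V := by
    have : S⁻¹ * c = v⁻¹ := by
      rw [hS]
      group
    rw [this]
    exact V.inv_mem hv
  have hlvl : T3.Lvl V p n ζ a S G₀ := by
    refine ⟨hp, hζ, hSζ, hG, hGζ, fun s hs => ?_⟩
    obtain ⟨k, hk⟩ := exists_exp_root s hpos hζ
    have hkc : k.Coprime (p ^ n) := by
      rw [← hζ.pow_iff_coprime hpos, ← hk]
      exact hζ.map_of_injective s.injective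
    obtain ⟨i, hi⟩ := hgen k ((Nat.coprime_pow_right_iff hn k p).1 hkc)
    exact ⟨i, by rw [hk, pow_eq_of_modEq hζ hi]⟩
  refine ⟨a, h, S, G₀, hlvl, hSc, ww_nf V hVo ζ, ww_gal V hVo hpos hζ, ?_⟩
  obtain ⟨π, hπ, hπ1⟩ := exists_res V hVo hpos hζ
  have hπeq : ∀ s s' : E ≃ₐ[ℚ] E, π s = π s' ↔ s⁻¹ * s' ∈ WW V ζ := by
    intro s s'
    rw [← hπ1, map_mul, map_inv, inv_mul_eq_one]
  choose lift hlift1 hlift2 using exists_lift V hp hcyc hn hζ
  have hfixmul : ∀ s s' : E ≃ₐ[ℚ] E, s ζ = ζ → s' ζ = ζ → (s⁻¹ * s') ζ = ζ := by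
    intro s s' hs hs'
    rw [AlgEquiv.mul_apply, hs', inv_fix hs]
  have hkey : ∀ s s' : E ≃ₐ[ℚ] E, s ζ = ζ → s' ζ = ζ →
      (QuotientGroup.mk s : (E ≃ₐ[ℚ] E) ⧸ V) = QuotientGroup.mk s' → π s = π s' := by
    intro s s' hs hs' hq
    rw [hπeq]
    exact ⟨QuotientGroup.eq.1 hq, hfixmul s s' hs hs'⟩
  let ι : ((E ≃ₐ[ℚ] E) ⧸ V) →* ((fixedField (WW V ζ)) ≃ₐ[ℚ] (fixedField (WW V ζ))) :=
    { toFun := fun q => π (lift q)
      map_one' := by
        rw [← map_one π]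
        exact hkey _ _ (hlift1 1) (AlgEquiv.one_apply ζ) (hlift2 1)
      map_mul' := fun q q' => by
        rw [← map_mul]
        refine hkey _ _ (hlift1 _) ?_ ?_
        · rw [AlgEquiv.mul_apply, hlift1, hlift1]
        · rw [hlift2, QuotientGroup.mk_mul, hlift2, hlift2] }
  have hι : ∀ s : E ≃ₐ[ℚ] E, s ζ = ζ → ι (QuotientGroup.mk s) = π s := fun s hs =>
    hkey _ _ (hlift1 _) hs (hlift2 _)
  have hιq : ∀ q, ∃ s : E ≃ₐ[ℚ] E, s ζ = ζ ∧ (QuotientGroup.mk s : (E ≃ₐ[ℚ] E) ⧸ V) = q ∧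
      ι q = π s := fun q => ⟨lift q, hlift1 q, hlift2 q, rfl⟩
  have hιc : ι (QuotientGroup.mk c) = π S := by
    rw [← hι S hSζ]
    congr 1
    exact (QuotientGroup.eq.2 hSc).symm
  refine ⟨ι, π G₀, fun s hs x => by rw [hι s hs, hπ], hπ G₀, ?_, ?_, hh, ?_, ?_, ?_, hdvd, ?_⟩
  · intro q q' hqq
    obtain ⟨s, hs, hsq, hsι⟩ := hιq q
    obtain ⟨s', hs', hsq', hsι'⟩ := hιq q'
    rw [hsι, hsι', hπeq] at hqq
    rw [← hsq, ← hsq']
    exact QuotientGroup.eq.2 hqq.1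
  · intro q
    obtain ⟨s, hs, hsq, hsι⟩ := hιq q
    rw [hsι, ← map_mul, ← map_mul, hπeq]
    have h1 : (G₀ * s)⁻¹ * (s * G₀) = (s⁻¹ * (G₀⁻¹ * s)) * G₀ := by group
    refine ⟨?_, ?_⟩
    · rw [h1]
      refine V.mul_mem ?_ hG
      have h2 := hV.conj_mem _ (V.inv_mem hG) s⁻¹
      rwa [inv_inv, mul_assoc] at h2
    · change ((G₀ * s)⁻¹ * (s * G₀)) ζ = ζ
      have h3 : (s * G₀) ζ = (G₀ * s) ζ := by
        rw [AlgEquiv.mul_apply, AlgEquiv.mul_apply, hs, hGζ, map_pow, hs]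
      rw [AlgEquiv.mul_apply, h3, ← AlgEquiv.mul_apply, inv_mul_cancel, AlgEquiv.one_apply]
  · rw [← map_pow, hπ1]
    refine ⟨V.pow_mem hG _, ?_⟩
    change (G₀ ^ (2 * h)) ζ = ζ
    rw [hGpow, pow_eq_of_modEq hζ h2h, pow_one]
  · rintro i hi hi2 ⟨q, hq⟩
    obtain ⟨s, hs, hsq, hsι⟩ := hιq q
    rw [hsι, ← map_pow, hπeq] at hq
    have h1 : (s⁻¹ * G₀ ^ i) ζ = ζ := hq.2
    have h2 : (G₀ ^ i) ζ = ζ := by
      have h3 : (s * (s⁻¹ * G₀ ^ i)) ζ = ζ := by rw [AlgEquiv.mul_apply, h1, hs]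
      rwa [mul_inv_cancel_left] at h3
    rw [hGpow] at h2
    refine hmin i hi hi2 ?_
    have ha0 : 0 < a := by
      rcases Nat.eq_zero_or_pos a with h5 | h5
      · rw [h5, Nat.coprime_zero_left] at hac
        exact absurd hac hp.one_lt.ne'
      · exact h5
    have hai : 1 ≤ a ^ i := Nat.one_le_pow _ _ ha0
    have h4 : ζ ^ (a ^ i - 1) = 1 := by
      apply mul_right_cancel₀ hζ0
      rw [← pow_succ, Nat.sub_add_cancel hai, h2, one_mul]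
    have h5 := (hζ.pow_eq_one_iff_dvd _).1 h4
    exact ((Nat.modEq_iff_dvd' hai).2 h5).symm
  · obtain ⟨φ, hφ⟩ := hc
    refine ⟨InfinitePlace.mk (φ.comp (algebraMap (fixedField (WW V ζ)) E)), ?_⟩
    have h1 : ι (QuotientGroup.mk c) * π G₀ ^ h = π c := by
      rw [hιc, ← map_pow, ← map_mul, hπeq]
      have hpn : ζ ^ (a ^ h) = ζ⁻¹ := by
        have h2 : ζ ^ (a ^ h + 1) = 1 := by
          rw [hζ.pow_eq_one_iff_dvd]
          exact_mod_cast hdvd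
        apply eq_inv_of_mul_eq_one_left
        rw [← pow_succ, h2]
      refine ⟨?_, ?_⟩
      · have h3 : (S * G₀ ^ h)⁻¹ * c = (G₀ ^ h)⁻¹ * (S⁻¹ * c) := by group
        rw [h3]
        exact V.mul_mem (V.inv_mem (V.pow_mem hG _)) hSc
      · change ((S * G₀ ^ h)⁻¹ * c) ζ = ζ
        have h3 : c ζ = (S * G₀ ^ h) ζ := by
          rw [AlgEquiv.mul_apply, hGpow, hpn, map_inv₀, hSζ, hcζ]
        rw [AlgEquiv.mul_apply, h3, ← AlgEquiv.mul_apply, inv_mul_cancel, AlgEquiv.one_apply]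
    rw [h1, InfinitePlace.smul_mk, ← InfinitePlace.mk_conjugate_eq]
    congr 1
    ext x
    have h2 : φ (((π c).symm x : fixedField (WW V ζ)) : E) =
        (starRingEnd ℂ) (φ (x : E)) := by
      have h3 : c (((π c).symm x : fixedField (WW V ζ)) : E) = x := by
        rw [← hπ, AlgEquiv.apply_symm_apply]
      have h4 := hφ (((π c).symm x : fixedField (WW V ζ)) : E)
      rw [h3] at h4
      rw [h4, Complex.conj_conj]
    simp only [ComplexEmbedding.conjugate_coe_eq, RingHom.comp_apply]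
    change (starRingEnd ℂ) (φ (((π c).symm x : fixedField (WW V ζ)) : E)) = φ (x : E)
    rw [h2, Complex.conj_conj]
  · intro v k hvk
    have h1 : (((v : 𝓞 (fixedField (WW V ζ))) : fixedField (WW V ζ)) : E) ^ (p ^ k) = 1 := by
      have h2 := congrArg (fun u : (𝓞 (fixedField (WW V ζ)))ˣ =>
        (((u : 𝓞 (fixedField (WW V ζ))) : fixedField (WW V ζ)) : E)) hvk
      simpa using h2
    obtain ⟨i, hi⟩ := tors_fix V hp hcyc hn hζ (y :=
      (((v : 𝓞 (fixedField (WW V ζ))) : fixedField (WW V ζ)) : E))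
      (fun w hw => ((v : 𝓞 (fixedField (WW V ζ))) : fixedField (WW V ζ)).2 ⟨w, hw⟩) h1
    apply Units.ext
    apply RingOfIntegers.ext
    apply Subtype.ext
    rw [H903.uact_coe, hιc, hπ, ← hi, map_pow, hSζ]

end Vale.Agent.P024.H377
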