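import Mathlib

set_option autoImplicit false

/-!
# P024, (T3), block LAT : the integral group ring is regular up to integers
-/

namespace Vale.Agent.P024.H377

open Finset MonoidAlgebra

variable {G : Type*} [Group G]

theorem vn_rat [Finite G] (y : MonoidAlgebra ℚ G) : ∃ y' : MonoidAlgebra ℚ G, y * y' * y = y := by
  let N : Submodule (MonoidAlgebra ℚ G) (MonoidAlgebra ℚ G) := Submodule.span _ {y}
  obtain ⟨N', hN⟩ := exists_isCompl N
  let π := N.projectionOnto N' hN
  obtain ⟨y', hy'⟩ := Submodule.mem_span_singleton.1 (π 1).2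
  refine ⟨y', ?_⟩
  have hyN : y ∈ N := Submodule.mem_span_singleton_self y
  have h1 : π y = ⟨y, hyN⟩ := Submodule.projectionOnto_apply_left hN ⟨y, hyN⟩
  have h2 : π y = y • π 1 := by
    rw [← map_smul, smul_eq_mul, mul_one]
  have h3 := congrArg Subtype.val (h1.symm.trans h2)
  rw [Submodule.coe_smul, ← hy', smul_eq_mul, smul_eq_mul] at h3
  rw [mul_assoc]
  exact h3.symm

/-- the integral version -/
theorem vn_int [Finite G] (y : MonoidAlgebra ℤ G) :
    ∃ (m : ℤ) (y' : MonoidAlgebra ℤ G), m ≠ 0 ∧ y * y' * y = m • y := by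
  classical
  let φ : MonoidAlgebra ℤ G →+* MonoidAlgebra ℚ G := mapRingHom G (Int.castRingHom ℚ)
  have hφc : ∀ x t, (φ x).coeff t = ((x.coeff t : ℤ) : ℚ) := fun x t => coeff_mapRingHom _ x t
  have hφ : Function.Injective φ := by
    intro x x' h
    ext t
    have h1 := congrArg (fun w : MonoidAlgebra ℚ G => w.coeff t) h
    simp only [hφc] at h1
    exact_mod_cast h1
  obtain ⟨z, hz⟩ := vn_rat (φ y)
  obtain ⟨⟨b, hb⟩, hb2⟩ := IsLocalization.exist_integer_multiples_of_finset (nonZeroDivisors ℤ)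
    (z.coeff.support.image fun t => z.coeff t)
  have h1 : ∃ z' : MonoidAlgebra ℤ G, φ z' = b • z := by
    have h2 : ∀ t, ∃ k : ℤ, (k : ℚ) = b • z.coeff t := by
      intro t
      by_cases ht : t ∈ z.coeff.support
      · obtain ⟨k, hk⟩ := hb2 _ (mem_image_of_mem _ ht)
        exact ⟨k, hk⟩
      · refine ⟨0, ?_⟩
        rw [Finsupp.notMem_support_iff.1 ht, smul_zero, Int.cast_zero]
    choose k hk using h2
    refine ⟨ofCoeff (Finsupp.equivFunOnFinite.symm k), ?_⟩
    ext t
    rw [hφc]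
    have h3 : (b • z).coeff t = b • z.coeff t := by
      rw [coeff_smul]
      rfl
    rw [h3, ← hk]
    rfl
  obtain ⟨z', hz'⟩ := h1
  refine ⟨b, z', nonZeroDivisors.ne_zero hb, hφ ?_⟩
  rw [map_mul, map_mul, hz', map_zsmul]
  rw [mul_smul_comm, smul_mul_assoc, hz]

end Vale.Agent.P024.H377
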