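import Vale.Agent.P024.H377.LatB
import Vale.Agent.P024.H377.LatV
import Vale.Agent.P024.H903.LatU

set_option autoImplicit false

/-!
# P024, (T3), block LAT : units of large order in the twisted eigenspaces
-/

namespace Vale.Agent.P024.H377

open Module Finset NumberField InfinitePlace Vale.Agent.P024.H903

section

variable {K : Type*} [Field K] [NumberField K]

/-- additive form of the action on units -/
noncomputable def aact (σ : K ≃ₐ[ℚ] K) : Additive (𝓞 K)ˣ →ₗ[ℤ] Additive (𝓞 K)ˣ :=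
  (MonoidHom.toAdditive (uact σ)).toIntLinearMap

theorem aact_apply (σ : K ≃ₐ[ℚ] K) (u : (𝓞 K)ˣ) :
    aact σ (Additive.ofMul u) = Additive.ofMul (uact σ u) := rfl

theorem aact_toMul (σ : K ≃ₐ[ℚ] K) (u : Additive (𝓞 K)ˣ) :
    (aact σ u).toMul = uact σ u.toMul := rfl

theorem aact_mul (σ τ : K ≃ₐ[ℚ] K) : aact (σ * τ) = aact σ * aact τ := by
  refine LinearMap.ext fun u => ?_
  change Additive.ofMul (uact (σ * τ) u.toMul) = Additive.ofMul (uact σ (uact τ u.toMul))
  rw [uact_mul]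

theorem aact_one : aact (1 : K ≃ₐ[ℚ] K) = 1 := by
  refine LinearMap.ext fun u => ?_
  change Additive.ofMul (uact (1 : K ≃ₐ[ℚ] K) u.toMul) = u
  rw [uact_one]
  rfl

theorem aact_pow (σ : K ≃ₐ[ℚ] K) (k : ℕ) : aact (σ ^ k) = aact σ ^ k := by
  induction k with
  | zero => rw [pow_zero, pow_zero, aact_one]
  | succ k ih => rw [pow_succ, pow_succ, aact_mul, ih]

variable {G : Type*} [Group G] (ι : G →* (K ≃ₐ[ℚ] K))

/-- the representation of the group ring on the units -/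
noncomputable def rep : MonoidAlgebra ℤ G →ₐ[ℤ] Module.End ℤ (Additive (𝓞 K)ˣ) :=
  MonoidAlgebra.lift ℤ (Module.End ℤ (Additive (𝓞 K)ˣ)) G
    { toFun := fun t => aact (ι t)
      map_one' := by rw [map_one, aact_one]
      map_mul' := fun s t => by rw [map_mul, aact_mul] }

theorem rep_of (t : G) : rep ι (MonoidAlgebra.of ℤ G t) = aact (ι t) := by
  rw [rep, MonoidAlgebra.lift_of]
  rfl

theorem rep_apply [Fintype G] (y : MonoidAlgebra ℤ G) (v : Additive (𝓞 K)ˣ) :
    rep ι y v = ∑ t, y.coeff t • aact (ι t) v := by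
  rw [rep, MonoidAlgebra.lift_apply, Finsupp.sum_fintype]
  · rw [LinearMap.sum_apply]
    rfl
  · intro i
    rw [zero_smul]

theorem rep_comm [Fintype G] {g : K ≃ₐ[ℚ] K} (hcomm : ∀ t, g * ι t = ι t * g)
    (y : MonoidAlgebra ℤ G) (v : Additive (𝓞 K)ˣ) :
    aact g (rep ι y v) = rep ι y (aact g v) := by
  rw [rep_apply, rep_apply, map_sum]
  refine sum_congr rfl fun t _ => ?_
  rw [map_smul, ← Module.End.mul_apply, ← Module.End.mul_apply, ← aact_mul, ← aact_mul, hcomm]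

end

theorem rep_vn {K : Type*} [Field K] [NumberField K] {G : Type*} [Group G]
    (ι : G →* (K ≃ₐ[ℚ] K)) (Y y' : MonoidAlgebra ℤ G) (m : ℤ) (hy : Y * y' * Y = m • Y)
    (v : Additive (𝓞 K)ˣ) : rep ι Y (rep ι y' (rep ι Y v)) = m • rep ι Y v := by
  have h1 := congrArg (fun y => rep ι y v) hy
  simp only [map_mul, map_zsmul] at h1
  exact h1

theorem zs {M ι : Type*} [AddCommGroup M] (s : Finset ι) (f : ι → M) (r : ℤ) :
    r • ∑ i ∈ s, f i = ∑ i ∈ s, r • f i := Finset.smul_sum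

theorem zalg {M : Type*} [AddCommGroup M] (k a p : ℤ) (e z : M) :
    k • (a • e + p • z) = a • (k • e) + p • (k • z) := by
  rw [smul_add, smul_comm k a, smul_comm k p]

theorem zneg {M : Type*} [AddCommGroup M] (k : ℤ) (e : M) : k • -e = -(k • e) := smul_neg _ _

theorem zsub {M ι : Type*} [AddCommGroup M] (s : Finset ι) (f : ι → M) (k k' : ι → ℤ) (y : M)
    (h : ∑ i ∈ s, k i • f i = ∑ i ∈ s, k' i • f i + y) :
    ∑ i ∈ s, (k i - k' i) • f i = y := by
  simp only [sub_smul, sum_sub_distrib]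
  exact sub_eq_of_eq_add' h

/-- **[T3-LAT]** -/
theorem lat.{u, v} {G : Type u} [Group G] [Fintype G] (c : G) (hc2 : c * c = 1) (x : G → ℤ)
    (hx : ∃ t, x t ≠ x (t * c)) :
    ∃ m : ℤ, m ≠ 0 ∧ ∀ (p : ℕ), p.Prime → ¬ (p : ℤ) ∣ m → ∀ (B b n : ℕ), b * B < n →
    ∀ (K : Type v) [Field K] [NumberField K] [IsGalois ℚ K] (ι : G →* (K ≃ₐ[ℚ] K)),
      Function.Injective ι → ∀ (g : K ≃ₐ[ℚ] K), (∀ t, g * ι t = ι t * g) → ∀ (h : ℕ), 0 < h →
      g ^ (2 * h) = 1 → (∀ i, 0 < i → i < 2 * h → g ^ i ∉ ι.range) →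
      ∀ (w0 : InfinitePlace K), (ι c * g ^ h) • w0 = w0 →
      ∀ (a : ℤ), (p : ℤ) ^ n ∣ a ^ h + 1 → a ^ h + 1 ≠ 0 →
      (∀ (v : (𝓞 K)ˣ) (k : ℕ), v ^ (p ^ k) = 1 → uact (ι c) v = v) →
      (∀ (T : Finset (𝓞 K)ˣ), (∀ u ∈ T, (∃ z : (𝓞 K)ˣ, uact g u = u ^ a * z ^ p) ∧
          ∃ z : (𝓞 K)ˣ, uact (ι c) u = u⁻¹ * z ^ p) →
        (∀ u ∈ T, ∀ v ∈ T, (∃ z : (𝓞 K)ˣ, u = v * z ^ p) → u = v) → T.card ≤ p ^ b) →
      ∃ u : (𝓞 K)ˣ, (∃ z : (𝓞 K)ˣ, uact g u = u ^ a * z ^ (p ^ n)) ∧ uact (ι c) u = u⁻¹ ∧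
        ¬ ∃ z : (𝓞 K)ˣ, (∏ t : G, (uact (ι t) u) ^ x t) ^ (p ^ B) = z ^ (p ^ n) := by
  classical
  let X : MonoidAlgebra ℤ G := MonoidAlgebra.ofCoeff (Finsupp.equivFunOnFinite.symm x)
  have hX : ∀ t, X.coeff t = x t := fun t => rfl
  obtain ⟨m, y', hm0, hy⟩ := vn_int (X * (1 - MonoidAlgebra.of ℤ G c))
  refine ⟨m, hm0, ?_⟩
  intro p hp hpm B b n hn K _ _ _ ι hι g hcomm h hh hg2 hdisj w0 hw0 a hpa ha htor hb
  obtain ⟨e, he1, he2⟩ := unit_family ι.range g (ι c) h hh (by rintro _ ⟨t, rfl⟩; exact hcomm t)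
    ⟨c, rfl⟩ (by rw [← map_mul, hc2, map_one]) hg2 hdisj w0 hw0
  set ε : Additive (𝓞 K)ˣ := Additive.ofMul e with hεdef
  have hrX : ∀ v, rep ι X v = ∑ t, x t • aact (ι t) v := fun v => rep_apply ι X v
  have hrep1 : ∀ v, rep ι (X * (1 - MonoidAlgebra.of ℤ G c)) v =
      rep ι X (v - aact (ι c) v) := by
    intro v
    rw [map_mul, map_sub, map_one, rep_of]
    rfl
  have hyy : ∀ v, rep ι X (rep ι y' (rep ι X (v - aact (ι c) v)) -
      aact (ι c) (rep ι y' (rep ι X (v - aact (ι c) v)))) = m • rep ι X (v - aact (ι c) v) := by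
    intro v
    rw [← hrep1, ← hrep1]
    exact rep_vn ι _ y' m hy v
  have hsum : rep ι X (ε - aact (ι c) ε) = ∑ t, (x t - x (t * c)) • aact (ι t) ε := by
    rw [map_sub, hrX, hrX]
    have h1 : ∑ t, x t • aact (ι t) (aact (ι c) ε) = ∑ t, x (t * c) • aact (ι t) ε := by
      rw [← Equiv.sum_comp (Equiv.mulRight c)]
      refine sum_congr rfl fun t _ => ?_
      rw [Equiv.coe_mulRight, ← Module.End.mul_apply, ← aact_mul, ← map_mul, mul_assoc, hc2,
        mul_one]
    rw [h1, ← sum_sub_distrib]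
    refine sum_congr rfl fun t _ => ?_
    rw [sub_smul]
  have hcc : ∀ v, aact (ι c) (aact (ι c) v) = v := by
    intro v
    rw [← Module.End.mul_apply, ← aact_mul, ← map_mul, hc2, map_one, aact_one]
    rfl
  have hind : ∀ f : Fin h → ℤ,
      IsTors (∑ j, f j • (aact g ^ (j : ℕ)) (rep ι X (ε - aact (ι c) ε))) → ∀ j, f j = 0 := by
    intro f hf
    obtain ⟨r, hr, hr2⟩ := hf
    let E : G ≃ ι.range := (MonoidHom.ofInjective hι).toEquiv
    have hE : ∀ t, ((E t : ι.range) : K ≃ₐ[ℚ] K) = ι t := fun t => rfl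
    have hEc : ∀ t : ι.range, E.symm (t * ⟨ι c, ⟨c, rfl⟩⟩) = E.symm t * c := by
      intro t
      rw [Equiv.symm_apply_eq]
      apply Subtype.ext
      rw [hE, map_mul]
      change (t : K ≃ₐ[ℚ] K) * ι c = ι (E.symm t) * ι c
      rw [← hE (E.symm t), Equiv.apply_symm_apply]
    have h1 := he2 (fun i t => f i * (x (E.symm t) - x (E.symm t * c))) (fun i t => by
      simp only [hEc]
      rw [mul_assoc, hc2, mul_one]
      ring) (by
      rw [Units.torsion, CommGroup.mem_torsion, isOfFinOrder_iff_zpow_eq_one]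
      refine ⟨r, hr, ?_⟩
      have h2 : Additive.ofMul (∏ i : Fin h, ∏ t : ι.range, uact (g ^ (i : ℕ) * (t : K ≃ₐ[ℚ] K)) e ^
          (f i * (x (E.symm t) - x (E.symm t * c)))) =
          ∑ j, f j • (aact g ^ (j : ℕ)) (rep ι X (ε - aact (ι c) ε)) := by
        rw [ofMul_prod]
        refine sum_congr rfl fun i _ => ?_
        rw [hsum, map_sum, zs, ofMul_prod, ← Equiv.sum_comp E]
        refine sum_congr rfl fun t _ => ?_
        rw [Equiv.symm_apply_apply, hE, ofMul_zpow, ← aact_apply, mul_smul, map_smul, aact_mul,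
          aact_pow]
        rfl
      rw [← h2, ← ofMul_zpow] at hr2
      exact Additive.ofMul.injective hr2)
    obtain ⟨t0, ht0⟩ := hx
    intro j
    have h3 := h1 j (E t0)
    rw [Equiv.symm_apply_apply] at h3
    exact (mul_eq_zero.1 h3).resolve_right (sub_ne_zero.2 ht0)
  have hbr : ∀ (r : ℕ) (e : Fin r → Additive (𝓞 K)ˣ),
      (∀ i, ∃ z, aact g (e i) = a • e i + (p : ℤ) • z) → (∀ i, aact (ι c) (e i) = - e i) →
      (∀ κ : Fin r → ℤ, (∃ z, ∑ i, κ i • e i = (p : ℤ) • z) → ∀ i, (p : ℤ) ∣ κ i) → r ≤ b := by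
    intro r e hge hce hκ
    choose z hz using hge
    let L : (Fin r → Fin p) → Additive (𝓞 K)ˣ := fun κ => ∑ i, ((κ i : ℕ) : ℤ) • e i
    have hL : ∀ κ κ' : Fin r → Fin p, (∃ z, L κ = L κ' + (p : ℤ) • z) → κ = κ' := by
      rintro κ κ' ⟨z, hz⟩
      have h1 : ∀ i, (p : ℤ) ∣ (((κ i : ℕ) : ℤ) - ((κ' i : ℕ) : ℤ)) := by
        apply hκ
        refine ⟨z, ?_⟩
        exact zsub _ _ _ _ _ hz
      funext i
      have h2 := h1 i
      have h3 := (κ i).2
      have h4 := (κ' i).2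
      apply Fin.ext
      have h5 : ((κ i : ℕ) : ℤ) = ((κ' i : ℕ) : ℤ) := by
        have h6 := Int.eq_zero_of_abs_lt_dvd h2 (by rw [abs_lt]; omega)
        omega
      exact_mod_cast h5
    have hcard : (univ.image fun κ => (L κ).toMul).card = p ^ r := by
      rw [card_image_of_injective]
      · simp
      · intro κ κ' h
        exact hL κ κ' ⟨0, by rw [smul_zero, add_zero]; exact Additive.toMul.injective h⟩
    have h1 := hb (univ.image fun κ => (L κ).toMul) (by
      intro u hu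
      obtain ⟨κ, -, rfl⟩ := mem_image.1 hu
      refine ⟨⟨(∑ i, ((κ i : ℕ) : ℤ) • z i).toMul, ?_⟩, ⟨1, ?_⟩⟩
      · have h2 : aact g (L κ) = a • L κ + (p : ℤ) • (∑ i, ((κ i : ℕ) : ℤ) • z i) := by
          simp only [L]
          rw [map_sum, zs, zs, ← sum_add_distrib]
          refine sum_congr rfl fun i _ => ?_
          rw [map_smul, hz, zalg]
        have h3 := congrArg Additive.toMul h2
        rw [aact_toMul, toMul_add, toMul_zsmul, toMul_zsmul, zpow_natCast] at h3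
        exact h3
      · have h2 : aact (ι c) (L κ) = - L κ := by
          simp only [L]
          rw [map_sum, ← sum_neg_distrib]
          refine sum_congr rfl fun i _ => ?_
          rw [map_smul, hce, zneg]
        have h3 := congrArg Additive.toMul h2
        rw [aact_toMul, toMul_neg] at h3
        rw [one_pow, mul_one]
        exact h3) (by
      intro u hu v hv ⟨z, hz⟩
      obtain ⟨κ, -, rfl⟩ := mem_image.1 hu
      obtain ⟨κ', -, rfl⟩ := mem_image.1 hv
      have h2 : κ = κ' := by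
        refine hL κ κ' ⟨Additive.ofMul z, ?_⟩
        apply Additive.toMul.injective
        rw [toMul_add, toMul_zsmul, zpow_natCast, hz]
        rfl
      rw [h2])
    rw [hcard] at h1
    exact (Nat.pow_le_pow_iff_right hp.one_lt).1 h1
  obtain ⟨k, hk, u, ⟨z, hz⟩, hcu, hkB⟩ := lat_abs hp n b h hh a hpa ha (aact g) (rep ι X)
    (aact (ι c)) (rep ι y') (rep_comm ι hcomm X)
    (fun v => by
      rw [← Module.End.mul_apply, ← Module.End.mul_apply, ← aact_mul, ← aact_mul, hcomm])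
    (rep_comm ι hcomm y') hcc m hpm hyy (by
      intro v k hv
      have h1 : v.toMul ^ (p ^ k) = 1 := by
        have h2 := congrArg Additive.toMul hv
        rw [toMul_zsmul, toMul_zero] at h2
        exact_mod_cast h2
      exact Additive.toMul.injective (htor _ k h1)) ε (by
      rw [← aact_pow]
      exact congrArg Additive.ofMul he1) hind hbr
  refine ⟨u.toMul, ⟨z.toMul, ?_⟩, ?_, ?_⟩
  · have h3 := congrArg Additive.toMul hz
    rw [aact_toMul, toMul_add, toMul_zsmul, toMul_zsmul] at h3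
    exact_mod_cast h3
  · exact congrArg Additive.toMul hcu
  · rintro ⟨w, hw⟩
    have hBk : B < k := by
      by_contra hc
      have : b * k ≤ b * B := Nat.mul_le_mul_left b (not_lt.1 hc)
      omega
    refine hkB B hBk (Additive.ofMul w) ?_
    apply Additive.toMul.injective
    rw [toMul_zsmul, toMul_zsmul, hrX, toMul_sum]
    simp only [toMul_zsmul, aact_toMul]
    exact_mod_cast hw

end Vale.Agent.P024.H377
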