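import Mathlib

set_option autoImplicit false

/-!
# P024 : the interpolation determinant is divisible by a large power of `p` (block W2)
-/

namespace Vale.Agent.P024.H377

open Finset

/-- few multi-indices are small -/
theorem card_small (r N E : ℕ) :
    ((univ : Finset (Fin r → Fin N)).filter (fun κ => ∑ i, (κ i : ℕ) < E)).card ≤ E ^ r := by
  classical
  have h : ((univ : Finset (Fin r → Fin N)).filter (fun κ => ∑ i, (κ i : ℕ) < E)).card ≤
      (Fintype.piFinset (fun _ : Fin r => range E)).card := by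
    refine Finset.card_le_card_of_injOn (fun κ i => (κ i : ℕ)) ?_ ?_
    · intro κ hκ
      have h1 := (mem_filter.1 (mem_coe.1 hκ)).2
      rw [mem_coe, Fintype.mem_piFinset]
      intro i
      rw [mem_range]
      exact (single_le_sum (f := fun i => (κ i : ℕ)) (fun _ _ => Nat.zero_le _)
        (mem_univ i)).trans_lt h1
    · intro κ _ κ' _ h
      funext i
      exact Fin.ext (congrFun h i)
  refine h.trans ?_
  rw [Fintype.card_piFinset]
  simp

/-- the sum of the sizes of `L` different multi-indices -/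
theorem sum_large (r N E L : ℕ) (hE : 2 * E ^ r ≤ L) (f : Fin L → (Fin r → Fin N))
    (hf : Function.Injective f) : E * (L / 2) ≤ ∑ b, ∑ i, (f b i : ℕ) := by
  classical
  set S := (univ : Finset (Fin L)).filter (fun b => ∑ i, (f b i : ℕ) < E) with hS
  have h1 : S.card ≤ E ^ r := by
    refine le_trans ?_ (card_small r N E)
    refine Finset.card_le_card_of_injOn f ?_ (fun a _ b _ h => hf h)
    intro b hb
    have h2 := (mem_filter.1 (mem_coe.1 hb)).2
    exact mem_coe.2 (mem_filter.2 ⟨mem_univ _, h2⟩)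
  have h2 : S.card + ((univ : Finset (Fin L)).filter (fun b => ¬ ∑ i, (f b i : ℕ) < E)).card = L := by
    have := card_filter_add_card_filter_not (s := (univ : Finset (Fin L)))
      (fun b => ∑ i, (f b i : ℕ) < E)
    rwa [card_univ, Fintype.card_fin] at this
  have h3 : L / 2 ≤ ((univ : Finset (Fin L)).filter (fun b => ¬ ∑ i, (f b i : ℕ) < E)).card := by
    omega
  calc E * (L / 2) ≤ E * ((univ : Finset (Fin L)).filter
        (fun b => ¬ ∑ i, (f b i : ℕ) < E)).card := Nat.mul_le_mul_left _ h3
    _ = ∑ _b ∈ (univ : Finset (Fin L)).filter (fun b => ¬ ∑ i, (f b i : ℕ) < E), E := by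
        rw [sum_const, smul_eq_mul, mul_comm]
    _ ≤ ∑ b ∈ (univ : Finset (Fin L)).filter (fun b => ¬ ∑ i, (f b i : ℕ) < E),
        ∑ i, (f b i : ℕ) := by
        refine sum_le_sum fun b hb => ?_
        exact not_lt.1 (mem_filter.1 hb).2
    _ ≤ ∑ b, ∑ i, (f b i : ℕ) := sum_le_sum_of_subset (filter_subset _ _)

/-- a product of two matrices, the second one with small rows -/
theorem det_prod_dvd {O : Type*} [CommRing O] (p : O) (r L E : ℕ) (hE : 2 * E ^ r ≤ L) (N : ℕ)
    (A : Fin L → (Fin r → Fin N) → O) (B : (Fin r → Fin N) → Fin L → O)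
    (hB : ∀ κ b, p ^ (∑ i, (κ i : ℕ)) ∣ B κ b) :
    p ^ (E * (L / 2)) ∣ (Matrix.of fun a b => ∑ κ, A a κ * B κ b : Matrix (Fin L) (Fin L) O).det := by
  classical
  rw [← Matrix.det_transpose]
  have e1 : (Matrix.of fun a b => ∑ κ, A a κ * B κ b : Matrix (Fin L) (Fin L) O).transpose.det =
      Matrix.detRowAlternating (fun b => ∑ κ : Fin r → Fin N, B κ b • (fun a => A a κ)) := by
    change Matrix.det _ = Matrix.det _
    congr 1
    ext b a
    simp only [Matrix.transpose_apply, Matrix.of_apply, Finset.sum_apply, Pi.smul_apply, smul_eq_mul]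
    refine sum_congr rfl fun κ _ => ?_
    ring
  rw [e1]
  have e2 : Matrix.detRowAlternating (fun b => ∑ κ : Fin r → Fin N, B κ b • (fun a => A a κ)) =
      ∑ f : Fin L → (Fin r → Fin N), Matrix.detRowAlternating
        (fun b => B (f b) b • (fun a => A a (f b))) :=
    (Matrix.detRowAlternating (n := Fin L) (R := O)).toMultilinearMap.map_sum
      (fun b κ => B κ b • (fun a => A a κ))
  rw [e2]
  refine dvd_sum fun f _ => ?_
  have e3 : Matrix.detRowAlternating (fun b => B (f b) b • (fun a => A a (f b))) =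
      (∏ b, B (f b) b) • Matrix.detRowAlternating (fun b => (fun a => A a (f b))) :=
    (Matrix.detRowAlternating (n := Fin L) (R := O)).toMultilinearMap.map_smul_univ
      (fun b => B (f b) b) (fun b => (fun a => A a (f b)))
  rw [e3]
  by_cases hf : Function.Injective f
  · rw [smul_eq_mul]
    refine Dvd.dvd.mul_right ?_ _
    have h1 : p ^ (∑ b, ∑ i, (f b i : ℕ)) ∣ ∏ b, B (f b) b := by
      rw [← prod_pow_eq_pow_sum]
      exact prod_dvd_prod_of_dvd _ _ fun b _ => hB (f b) b
    exact (pow_dvd_pow p (sum_large r N E L hE f hf)).trans h1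
  · have h0 : Matrix.detRowAlternating (R := O) (fun b => (fun a => A a (f b))) = 0 := by
      rw [Function.Injective] at hf
      push Not at hf
      obtain ⟨b, b', h1, h2⟩ := hf
      exact (Matrix.detRowAlternating (n := Fin L) (R := O)).map_eq_zero_of_eq _
        (by simp only [h1]) h2
    rw [h0, smul_zero]
    exact dvd_zero _

/-- **W2** -/
theorem det_dvd {O : Type*} [CommRing O] (p : O) (r L E m : ℕ) (hE : 2 * E ^ r ≤ L)
    (M : Matrix (Fin L) (Fin L) O) (N : ℕ)
    (A : Fin L → (Fin r → Fin N) → O) (B : (Fin r → Fin N) → Fin L → O)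
    (hM : ∀ a b, p ^ m ∣ M a b - ∑ κ, A a κ * B κ b)
    (hB : ∀ κ b, p ^ (∑ i, (κ i : ℕ)) ∣ B κ b) (hm : E * (L / 2) ≤ m) :
    p ^ (E * (L / 2)) ∣ M.det := by
  have h1 := det_prod_dvd p r L E hE N A B hB
  set M' : Matrix (Fin L) (Fin L) O := Matrix.of fun a b => ∑ κ, A a κ * B κ b with hM'
  have h2 : p ^ m ∣ M.det - M'.det := by
    rw [← Ideal.mem_span_singleton, ← Ideal.Quotient.eq]
    rw [RingHom.map_det, RingHom.map_det]
    congr 1
    ext a b
    rw [RingHom.mapMatrix_apply, RingHom.mapMatrix_apply, Matrix.map_apply, Matrix.map_apply,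
      Ideal.Quotient.eq, Ideal.mem_span_singleton]
    exact hM a b
  have h3 := (pow_dvd_pow p hm).trans h2
  have h4 := dvd_add h3 h1
  rwa [sub_add_cancel] at h4

end Vale.Agent.P024.H377
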