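import Mathlib

set_option autoImplicit false

/-!
# P024, (T3), block GAL, part A : a primitive root modulo `p ^ n`
-/

namespace Vale.Agent.P024.H377

theorem prim_root {p : ℕ} (hp : p.Prime) (hp2 : p ≠ 2) {n : ℕ} (hn : 0 < n) :
    ∃ a h : ℕ, 0 < h ∧ a.Coprime p ∧
      (∀ k : ℕ, k.Coprime p → ∃ i : ℕ, k ≡ a ^ i [MOD p ^ n]) ∧
      a ^ (2 * h) ≡ 1 [MOD p ^ n] ∧ (∀ i, 0 < i → i < 2 * h → ¬ a ^ i ≡ 1 [MOD p ^ n]) ∧
      (p : ℤ) ^ n ∣ (a : ℤ) ^ h + 1 := by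
  classical
  have hN0 : NeZero (p ^ n) := ⟨pow_ne_zero _ hp.ne_zero⟩
  have hcyc : IsCyclic (ZMod (p ^ n))ˣ := ZMod.isCyclic_units_of_prime_pow p hp hp2 n
  obtain ⟨γ, hγ⟩ := IsCyclic.exists_generator (α := (ZMod (p ^ n))ˣ)
  set a := ((γ : (ZMod (p ^ n))ˣ) : ZMod (p ^ n)).val with ha
  have haγ : ((a : ℕ) : ZMod (p ^ n)) = (γ : ZMod (p ^ n)) := by
    rw [ha, ZMod.natCast_zmod_val]
  have hcop : a.Coprime (p ^ n) := by
    rw [ha]
    exact ZMod.val_coe_unit_coprime γ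
  have hcop' : a.Coprime p := (Nat.coprime_pow_right_iff hn a p).1 hcop
  have hN : orderOf γ = (p ^ n).totient := by
    rw [orderOf_eq_card_of_forall_mem_zpowers hγ, Nat.card_eq_fintype_card,
      ZMod.card_units_eq_totient]
  have hp3 : 2 < p := lt_of_le_of_ne hp.two_le (Ne.symm hp2)
  have hp3n : 2 < p ^ n := by
    calc 2 < p := hp3
      _ = p ^ 1 := (pow_one p).symm
      _ ≤ p ^ n := Nat.pow_le_pow_right hp.pos hn
  obtain ⟨h, hh⟩ := (Nat.totient_even hp3n)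
  have hh0 : 0 < h := by
    have := Nat.totient_pos.2 (pow_pos hp.pos n)
    omega
  have hN2 : orderOf γ = 2 * h := by rw [hN, hh]; ring
  have hiff : ∀ i : ℕ, a ^ i ≡ 1 [MOD p ^ n] ↔ γ ^ i = 1 := by
    intro i
    rw [← ZMod.natCast_eq_natCast_iff, Units.ext_iff]
    push_cast
    rw [haγ]
  have h2h : a ^ (2 * h) ≡ 1 [MOD p ^ n] := by
    rw [hiff, ← hN2, pow_orderOf_eq_one]
  refine ⟨a, h, hh0, hcop', ?_, h2h, ?_, ?_⟩
  · intro k hk
    have hk' : k.Coprime (p ^ n) := Nat.Coprime.pow_right _ hk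
    have h1 := hγ (ZMod.unitOfCoprime k hk')
    rw [← mem_powers_iff_mem_zpowers] at h1
    obtain ⟨i, hi⟩ := h1
    refine ⟨i, ?_⟩
    rw [← ZMod.natCast_eq_natCast_iff]
    have h2 := congrArg Units.val hi
    simp only [Units.val_pow_eq_pow_val, ZMod.coe_unitOfCoprime] at h2
    push_cast
    rw [haγ, h2]
  · intro i hi hi2 h1
    rw [hiff] at h1
    have := Nat.le_of_dvd hi (orderOf_dvd_of_pow_eq_one h1)
    omega
  · have h1 : (p : ℤ) ^ n ∣ ((a : ℤ) ^ h - 1) * ((a : ℤ) ^ h + 1) := by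
      have h2 : ((p ^ n : ℕ) : ℤ) ∣ ((a ^ (2 * h) : ℕ) : ℤ) - ((1 : ℕ) : ℤ) :=
        (Nat.modEq_iff_dvd.1 h2h.symm)
      push_cast at h2
      have h3 : (a : ℤ) ^ (2 * h) - 1 = ((a : ℤ) ^ h - 1) * ((a : ℤ) ^ h + 1) := by
        rw [two_mul, pow_add]
        ring
      rwa [h3] at h2
    have hpp : Prime (p : ℤ) := Nat.prime_iff_prime_int.1 hp
    by_cases h4 : (p : ℤ) ∣ (a : ℤ) ^ h - 1
    · have h5 : ¬ (p : ℤ) ∣ (a : ℤ) ^ h + 1 := by
        intro h5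
        have h6 := dvd_sub h5 h4
        have h7 : (a : ℤ) ^ h + 1 - ((a : ℤ) ^ h - 1) = 2 := by ring
        rw [h7] at h6
        have h8 := Int.le_of_dvd (by norm_num) h6
        omega
      exfalso
      have h6 : IsCoprime ((p : ℤ) ^ n) ((a : ℤ) ^ h + 1) :=
        (hpp.coprime_iff_not_dvd.2 h5).pow_left
      have h7 : (p : ℤ) ^ n ∣ (a : ℤ) ^ h - 1 := h6.dvd_of_dvd_mul_right h1
      have h8 : a ^ h ≡ 1 [MOD p ^ n] := by
        refine (Nat.modEq_iff_dvd.2 ?_).symm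
        push_cast
        exact h7
      rw [hiff] at h8
      have := Nat.le_of_dvd hh0 (orderOf_dvd_of_pow_eq_one h8)
      omega
    · have h6 : IsCoprime ((p : ℤ) ^ n) ((a : ℤ) ^ h - 1) :=
        (hpp.coprime_iff_not_dvd.2 h4).pow_left
      exact h6.dvd_of_dvd_mul_left h1

end Vale.Agent.P024.H377
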