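import Vale.Agent.P024.H644.T7
import Vale.Agent.P024.M4.Spec
import Vale.Agent.P024.H377.GalA
import Vale.Agent.P024.H903.Mink

set_option autoImplicit false

/-!
# P024, (T3), block GAL, part B : the Galois group of the field of level `n`
-/

namespace Vale.Agent.P024.H377

open IntermediateField NumberField
open Vale.Agent.P024 Vale.Agent.P024.T3

variable {E : Type*} [Field E] [CharZero E] [IsGalois ℚ E]
variable (V : Subgroup (E ≃ₐ[ℚ] E))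

theorem ww_open (hVo : IsOpen (V : Set (E ≃ₐ[ℚ] E))) (ζ : E) :
    IsOpen (WW V ζ : Set (E ≃ₐ[ℚ] E)) := by
  rw [WW, Subgroup.coe_inf]
  exact hVo.inter (stabilizer_isOpen_of_isIntegral ζ)

theorem ww_fix (hVo : IsOpen (V : Set (E ≃ₐ[ℚ] E))) (ζ : E) :
    (fixedField (WW V ζ)).fixingSubgroup = WW V ζ := by
  have h1 : IsClosed (WW V ζ : Set (E ≃ₐ[ℚ] E)) :=
    Subgroup.isClosed_of_isOpen _ (ww_open V hVo ζ)
  exact InfiniteGalois.fixingSubgroup_fixedField ⟨WW V ζ, h1⟩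

theorem ww_fd (hVo : IsOpen (V : Set (E ≃ₐ[ℚ] E))) (ζ : E) :
    FiniteDimensional ℚ (fixedField (WW V ζ)) := by
  rw [← InfiniteGalois.isOpen_iff_finite, ww_fix V hVo ζ]
  exact ww_open V hVo ζ

theorem ww_nf (hVo : IsOpen (V : Set (E ≃ₐ[ℚ] E))) (ζ : E) :
    NumberField (fixedField (WW V ζ)) := by
  have := ww_fd V hVo ζ
  exact { to_charZero := inferInstance, to_finiteDimensional := this }

theorem ww_gal [hV : V.Normal] (hVo : IsOpen (V : Set (E ≃ₐ[ℚ] E))) {N : ℕ} (hN : 0 < N) {ζ : E}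
    (hζ : IsPrimitiveRoot ζ N) : IsGalois ℚ (fixedField (WW V ζ)) := by
  refine (InfiniteGalois.normal_iff_isGalois _).1 ?_
  rw [ww_fix V hVo ζ]
  exact ⟨fun w hw g => conj_WW hN hζ hw g⟩

/-- the complex conjugation inverts roots of unity -/
theorem cc_root {c : E ≃ₐ[ℚ] E} (hc : M4.IsCC c) {N : ℕ} (hN : 0 < N) {ζ : E}
    (hζ : ζ ^ N = 1) : c ζ = ζ⁻¹ := by
  obtain ⟨φ, hφ⟩ := hc
  apply φ.injective
  rw [hφ, map_inv₀]
  have h1 : (φ ζ) ^ N = 1 := by rw [← map_pow, hζ, map_one]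
  have h2 : ‖φ ζ‖ = 1 := by
    exact Complex.norm_eq_one_of_pow_eq_one h1 hN.ne'
  rw [Complex.inv_def, Complex.normSq_eq_norm_sq, h2]
  simp

/-- lifts of the elements of the quotient which fix the root of unity -/
theorem exists_lift {p : ℕ} (hp : p.Prime)
    (hcyc : ∀ (n : ℕ) (ζ : E), IsPrimitiveRoot ζ (p ^ n) → ∀ a : ℕ, a.Coprime p →
      ∃ σ ∈ V, σ ζ = ζ ^ a)
    {n : ℕ} (hn : 0 < n) {ζ : E} (hζ : IsPrimitiveRoot ζ (p ^ n)) (q : (E ≃ₐ[ℚ] E) ⧸ V) :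
    ∃ s : E ≃ₐ[ℚ] E, s ζ = ζ ∧ (QuotientGroup.mk s : (E ≃ₐ[ℚ] E) ⧸ V) = q := by
  obtain ⟨s0, rfl⟩ := QuotientGroup.mk_surjective q
  have hpos : 0 < p ^ n := pow_pos hp.pos n
  obtain ⟨k, hk⟩ := exists_exp_root s0⁻¹ hpos hζ
  have hkc : k.Coprime (p ^ n) := by
    rw [← hζ.pow_iff_coprime hpos, ← hk]
    exact hζ.map_of_injective (s0⁻¹ : E ≃ₐ[ℚ] E).injective
  obtain ⟨v, hv, hvζ⟩ := hcyc n ζ hζ k ((Nat.coprime_pow_right_iff hn k p).1 hkc)
  refine ⟨s0 * v, ?_, ?_⟩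
  · rw [AlgEquiv.mul_apply, hvζ, ← hk, ← AlgEquiv.mul_apply, mul_inv_cancel, AlgEquiv.one_apply]
  · rw [QuotientGroup.eq]
    have : (s0 * v)⁻¹ * s0 = v⁻¹ := by group
    rw [this]
    exact V.inv_mem hv

/-- the restriction homomorphism -/
theorem exists_res [hV : V.Normal] (hVo : IsOpen (V : Set (E ≃ₐ[ℚ] E))) {N : ℕ} (hN : 0 < N)
    {ζ : E} (hζ : IsPrimitiveRoot ζ N) :
    ∃ π : (E ≃ₐ[ℚ] E) →* (fixedField (WW V ζ) ≃ₐ[ℚ] fixedField (WW V ζ)),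
      (∀ s x, ((π s x : fixedField (WW V ζ)) : E) = s x) ∧ ∀ s, π s = 1 ↔ s ∈ WW V ζ := by
  have hG := ww_gal V hVo hN hζ
  let π : (E ≃ₐ[ℚ] E) →* (fixedField (WW V ζ) ≃ₐ[ℚ] fixedField (WW V ζ)) :=
    AlgEquiv.restrictNormalHom (fixedField (WW V ζ))
  have h1 : ∀ s x, ((π s x : fixedField (WW V ζ)) : E) = s x := fun s x =>
    AlgEquiv.restrictNormal_commutes s (fixedField (WW V ζ)) x
  refine ⟨π, h1, fun s => ?_⟩
  have hW : s ∈ WW V ζ ↔ ∀ x ∈ fixedField (WW V ζ), s x = x := by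
    have h2 := ww_fix V hVo ζ
    constructor
    · intro h
      rw [← h2] at h
      exact (IntermediateField.mem_fixingSubgroup_iff _ _).1 h
    · intro h
      rw [← h2]
      exact (IntermediateField.mem_fixingSubgroup_iff _ _).2 h
  rw [hW]
  constructor
  · intro h x hx
    have h2 := h1 s ⟨x, hx⟩
    rw [h] at h2
    exact h2.symm
  · intro h
    ext x
    rw [h1]
    exact h x x.2

/-- the torsion condition -/
theorem tors_fix [hV : V.Normal] {p : ℕ} (hp : p.Prime)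
    (hcyc : ∀ (n : ℕ) (ζ : E), IsPrimitiveRoot ζ (p ^ n) → ∀ a : ℕ, a.Coprime p →
      ∃ σ ∈ V, σ ζ = ζ ^ a)
    {n : ℕ} (hn : 0 < n) {ζ : E} (hζ : IsPrimitiveRoot ζ (p ^ n)) {y : E}
    (hy : ∀ w ∈ WW V ζ, w y = y) {k : ℕ} (hk : y ^ (p ^ k) = 1) : ∃ i : ℕ, ζ ^ i = y := by
  have hne : NeZero (p ^ n) := ⟨pow_ne_zero _ hp.ne_zero⟩
  obtain ⟨j, hj, hj2⟩ := (Nat.dvd_prime_pow hp).1 (orderOf_dvd_of_pow_eq_one hk)
  have hyp : IsPrimitiveRoot y (p ^ j) := by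
    rw [← hj2]
    exact IsPrimitiveRoot.orderOf y
  by_cases hjn : j ≤ n
  · have h1 : y ^ (p ^ n) = 1 := by
      rw [← Nat.sub_add_cancel hjn, pow_add, mul_comm, pow_mul, hyp.pow_eq_one, one_pow]
    obtain ⟨i, -, hi⟩ := hζ.eq_pow_of_pow_eq_one h1
    exact ⟨i, hi⟩
  · exfalso
    push Not at hjn
    have hco : (1 + p ^ n).Coprime p := by
      rw [Nat.coprime_comm, hp.coprime_iff_not_dvd]
      intro h
      have h2 : p ∣ p ^ n := dvd_pow_self p hn.ne'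
      have h3 : p ∣ 1 := (Nat.dvd_add_left h2).1 h
      exact hp.one_lt.ne' (Nat.dvd_one.1 h3)
    obtain ⟨σ, hσ, hσy⟩ := hcyc j y hyp _ hco
    -- the power of `y` of order `p ^ n`
    have h1 : IsPrimitiveRoot (y ^ (p ^ (j - n))) (p ^ n) := by
      refine hyp.pow (pow_pos hp.pos j) ?_
      rw [← pow_add, Nat.sub_add_cancel hjn.le]
    have h2 : σ (y ^ (p ^ (j - n))) = y ^ (p ^ (j - n)) := by
      rw [map_pow, hσy, ← pow_mul, add_mul, one_mul, ← pow_add, Nat.add_sub_cancel' hjn.le,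
        pow_add, hyp.pow_eq_one, mul_one]
    obtain ⟨i, -, hi⟩ := h1.eq_pow_of_pow_eq_one hζ.pow_eq_one
    have h3 : σ ζ = ζ := by rw [← hi, map_pow, h2]
    have h4 := hy σ ⟨hσ, h3⟩
    rw [hσy, pow_add, pow_one] at h4
    have hy0 : y ≠ 0 := by
      intro h
      rw [h, zero_pow (pow_ne_zero _ hp.ne_zero)] at hk
      exact zero_ne_one hk
    have h5 : y ^ (p ^ n) = 1 := by
      exact mul_left_cancel₀ hy0 (by rw [h4, mul_one])
    have h6 := hyp.dvd_of_pow_eq_one _ h5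
    have h7 := (Nat.pow_dvd_pow_iff_le_right hp.one_lt).1 h6
    omega

end Vale.Agent.P024.H377
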