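import Mathlib

set_option autoImplicit false

/-!
# P024, (T3), block LAT, part A : twisted fixed points of a lattice
-/

namespace Vale.Agent.P024.H377

open Module Finset

theorem padic_prod {ι : Type*} {p : ℕ} [Fact p.Prime] (s : Finset ι) (f : ι → ℕ)
    (hf : ∀ i ∈ s, f i ≠ 0) : padicValNat p (∏ i ∈ s, f i) = ∑ i ∈ s, padicValNat p (f i) := by
  classical
  induction s using Finset.induction_on with
  | empty => simp
  | insert a s ha ih =>
    rw [prod_insert ha, sum_insert ha, padicValNat.mul (hf a (mem_insert_self a s))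
      (prod_ne_zero_iff.2 fun i hi => hf i (mem_insert_of_mem hi)),
      ih fun i hi => hf i (mem_insert_of_mem hi)]

section snf

variable {S : Type*} [AddCommGroup S] [Module.Free ℤ S] [Module.Finite ℤ S]

/-- an element of large order in the kernel of `δ` modulo `p ^ n` -/
theorem snf_elt (δ : S →ₗ[ℤ] S) (hinj : Function.Injective δ) {p : ℕ} (hp : p.Prime) (n b : ℕ)
    (hidx : p ^ n ∣ (LinearMap.range δ).toAddSubgroup.index)
    (hb : ∀ (r : ℕ) (e : Fin r → S), (∀ i, ∃ z, δ (e i) = (p : ℤ) • z) →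
      (∀ κ : Fin r → ℤ, (∃ z, ∑ i, κ i • e i = (p : ℤ) • z) → ∀ i, (p : ℤ) ∣ κ i) → r ≤ b) :
    ∃ k : ℕ, n ≤ b * k ∧ ∃ w : S, (∃ z, δ w = (p : ℤ) ^ n • z) ∧
      ∀ B < k, ∀ z, (p : ℤ) ^ B • w ≠ (p : ℤ) ^ n • z := by
  classical
  rcases Nat.eq_zero_or_pos n with hn | hn
  · exact ⟨0, by omega, 0, ⟨0, by simp⟩, fun B hB => absurd hB (by omega)⟩
  have hpp : Fact p.Prime := ⟨hp⟩
  let eqv : S ≃ₗ[ℤ] LinearMap.range δ := LinearEquiv.ofInjective δ hinj
  have hrank : finrank ℤ (LinearMap.range δ) = finrank ℤ S := eqv.symm.finrank_eq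
  let b0 := Module.Free.chooseBasis ℤ S
  let top := Submodule.smithNormalFormTopBasis b0 hrank
  let bot := Submodule.smithNormalFormBotBasis b0 hrank
  let d := Submodule.smithNormalFormCoeffs b0 hrank
  let e : Basis (Module.Free.ChooseBasisIndex ℤ S) ℤ S := bot.map eqv.symm
  have he : ∀ i, δ (e i) = d i • top i := by
    intro i
    have h1 : ((bot i : LinearMap.range δ) : S) = d i • top i :=
      Submodule.smithNormalFormBotBasis_def b0 hrank i
    rw [← h1]
    have h2 : (eqv (e i) : S) = δ (e i) := LinearEquiv.ofInjective_apply δ (e i)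
    rw [← h2]
    simp only [e, Basis.map_apply, LinearEquiv.apply_symm_apply]
  have hd0 : ∀ i, d i ≠ 0 := fun i => Submodule.smithNormalFormCoeffs_ne_zero b0 hrank i
  have hcard : (LinearMap.range δ).toAddSubgroup.index = ∏ i, (d i).natAbs := by
    have h1 : Nat.card (S ⧸ LinearMap.range δ) = ∏ i, (d i).natAbs := by
      rw [Nat.card_congr (Submodule.quotientEquivPiZMod (LinearMap.range δ) b0 hrank).toEquiv,
        Nat.card_pi]
      refine prod_congr rfl fun i _ => ?_
      exact Nat.card_zmod _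
    rw [← h1]
    rfl
  rw [hcard] at hidx
  set v : Module.Free.ChooseBasisIndex ℤ S → ℕ := fun i => padicValNat p (d i).natAbs with hv
  have hprod0 : ∏ i, (d i).natAbs ≠ 0 :=
    prod_ne_zero_iff.2 fun i _ => Int.natAbs_ne_zero.2 (hd0 i)
  have hsum : n ≤ ∑ i, v i := by
    have h1 := (padicValNat_dvd_iff_le hprod0).1 hidx
    have h2 : padicValNat p (∏ i, (d i).natAbs) = ∑ i, v i := by
      rw [hv]
      exact padic_prod univ _ fun i _ => Int.natAbs_ne_zero.2 (hd0 i)
    rw [h2] at h1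
    exact h1
  set I := (univ : Finset (Module.Free.ChooseBasisIndex ℤ S)).filter (fun i => (p : ℤ) ∣ d i) with hI
  have hsumI : ∑ i, v i = ∑ i ∈ I, v i := by
    symm
    refine sum_subset (filter_subset _ _) fun i _ hi => ?_
    refine padicValNat.eq_zero_of_not_dvd fun h => hi ?_
    rw [hI, mem_filter]
    exact ⟨mem_univ _, Int.natCast_dvd.2 h⟩
  have hIb : I.card ≤ b := by
    let q : Fin I.card ≃ I := I.equivFin.symm
    refine hb I.card (fun i => e (q i)) (fun i => ?_) (fun κ hκ i => ?_)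
    · have h1 := (mem_filter.1 (q i).2).2
      obtain ⟨c, hc⟩ := h1
      exact ⟨c • top (q i), by rw [he, hc, smul_smul]⟩
    · obtain ⟨z, hz⟩ := hκ
      have h1 := congrArg (fun y => e.repr y (q i)) hz
      simp only [map_sum, map_smul, Finsupp.coe_finsetSum, Finset.sum_apply, Finsupp.smul_apply,
        Basis.repr_self, smul_eq_mul] at h1
      rw [sum_eq_single i] at h1
      · rw [Finsupp.single_eq_same, mul_one] at h1
        exact ⟨_, h1⟩
      · intro j _ hj
        rw [Finsupp.single_eq_of_ne, mul_zero]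
        intro h
        exact hj (q.injective (Subtype.ext h.symm))
      · exact fun h => absurd (mem_univ _) h
  rw [hsumI] at hsum
  have hIne : I.Nonempty := by
    rw [nonempty_iff_ne_empty]
    intro h
    rw [h, sum_empty] at hsum
    omega
  obtain ⟨i0, hi0, hmax⟩ := exists_max_image I v hIne
  have h3 : n ≤ b * v i0 := by
    calc n ≤ ∑ i ∈ I, v i := hsum
      _ ≤ ∑ _i ∈ I, v i0 := sum_le_sum fun i hi => hmax i hi
      _ = I.card * v i0 := by rw [sum_const, smul_eq_mul]
      _ ≤ b * v i0 := Nat.mul_le_mul_right _ hIb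
  have hb1 : 1 ≤ b := le_trans (card_pos.2 hIne) hIb
  refine ⟨min n (v i0), ?_, (p : ℤ) ^ (n - min n (v i0)) • e i0, ?_, ?_⟩
  · rcases le_total n (v i0) with h | h
    · rw [min_eq_left h]
      exact Nat.le_mul_of_pos_left _ hb1
    · rw [min_eq_right h]
      exact h3
  · have h4 : (p : ℤ) ^ (min n (v i0)) ∣ d i0 := by
      have h5 : p ^ (v i0) ∣ (d i0).natAbs := pow_padicValNat_dvd
      have h6 : p ^ (min n (v i0)) ∣ (d i0).natAbs := (pow_dvd_pow p (min_le_right _ _)).trans h5
      have h7 := Int.natCast_dvd.2 h6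
      push_cast at h7
      exact h7
    obtain ⟨c, hc⟩ := h4
    refine ⟨c • top i0, ?_⟩
    rw [map_smul, he, hc, smul_smul, smul_smul, ← mul_assoc, ← pow_add,
      Nat.sub_add_cancel (min_le_left _ _)]
  · intro B hB z hz
    rw [smul_smul, ← pow_add] at hz
    have h8 := congrArg (fun y => e.repr y i0) hz
    simp only [map_smul, Finsupp.smul_apply, Basis.repr_self, Finsupp.single_eq_same, smul_eq_mul,
      mul_one] at h8
    have h9 : (p : ℤ) ^ n ∣ (p : ℤ) ^ (B + (n - min n (v i0))) := ⟨_, h8⟩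
    have hp1 : 1 < p := hp.one_lt
    have h10 : p ^ n ∣ p ^ (B + (n - min n (v i0))) := by exact_mod_cast h9
    have h11 := (Nat.pow_dvd_pow_iff_le_right hp1).1 h10
    have := min_le_left n (v i0)
    omega

end snf

section idx

variable {S : Type*} [AddCommGroup S] [Module.Free ℤ S] [Module.Finite ℤ S]
variable (γ : S →ₗ[ℤ] S) (t : S) (h : ℕ) (a : ℤ)

/-- the lattice generated by the orbit -/
def orb : Submodule ℤ S := Submodule.span ℤ (Set.range fun j : Fin h => (γ ^ (j : ℕ)) t)

theorem orb_stable (hγ : (γ ^ h) t = -t) {v : S} (hv : v ∈ orb γ t h) : γ v ∈ orb γ t h := by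
  unfold orb at hv ⊢
  induction hv using Submodule.span_induction with
  | mem x hx =>
    obtain ⟨j, rfl⟩ := hx
    have e1 : γ ((γ ^ (j : ℕ)) t) = (γ ^ ((j : ℕ) + 1)) t := by
      rw [pow_succ']
      rfl
    simp only [e1]
    by_cases hj : (j : ℕ) + 1 < h
    · exact Submodule.subset_span ⟨⟨j + 1, hj⟩, rfl⟩
    · have : (j : ℕ) + 1 = h := by omega
      rw [this, hγ]
      refine Submodule.neg_mem _ (Submodule.subset_span ⟨⟨0, by omega⟩, ?_⟩)
      simp
  | zero => rw [map_zero]; exact Submodule.zero_mem _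
  | add x y _ _ hx hy => rw [map_add]; exact Submodule.add_mem _ hx hy
  | smul c x _ hx => rw [map_smul]; exact Submodule.smul_mem _ c hx

theorem orb_neg (hγ : (γ ^ h) t = -t) {v : S} (hv : v ∈ orb γ t h) : (γ ^ h) v = -v := by
  unfold orb at hv
  induction hv using Submodule.span_induction with
  | mem x hx =>
    obtain ⟨j, rfl⟩ := hx
    have e1 : (γ ^ h) ((γ ^ (j : ℕ)) t) = (γ ^ (j : ℕ)) ((γ ^ h) t) := by
      rw [← Module.End.mul_apply, ← Module.End.mul_apply, ← pow_add, ← pow_add, add_comm]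
    simp only [e1]
    rw [hγ, map_neg]
  | zero => simp
  | add x y _ _ hx hy => rw [map_add, hx, hy]; abel
  | smul c x _ hx => rw [map_smul, hx, smul_neg]

/-- `γ - a` is injective -/
theorem sub_inj (hγ : (γ ^ h) t = -t) (hfin : ∀ v : S, ∃ r : ℤ, r ≠ 0 ∧ r • v ∈ orb γ t h)
    (ha : a ^ h + 1 ≠ 0) : Function.Injective (γ - a • (1 : S →ₗ[ℤ] S)) := by
  rw [← LinearMap.ker_eq_bot, LinearMap.ker_eq_bot']
  intro v hv
  have h1 : γ v = a • v := by
    have : γ v - a • v = 0 := hv
    exact sub_eq_zero.1 this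
  obtain ⟨r, hr, hr2⟩ := hfin v
  have h2 : ∀ k : ℕ, (γ ^ k) (r • v) = a ^ k • (r • v) := by
    intro k
    induction k with
    | zero => simp
    | succ k ih =>
      rw [pow_succ', Module.End.mul_apply, ih, map_smul, map_smul, h1]
      simp only [smul_smul]
      congr 1
      ring
  have h3 := orb_neg γ t h hγ hr2
  rw [h2] at h3
  have h4 : ((a ^ h + 1) * r) • v = 0 := by
    have h5 : (a ^ h) • (r • v) + r • v = 0 := by rw [h3]; abel
    rw [← h5]
    simp only [smul_smul]
    rw [add_mul, one_mul, add_smul]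
  rcases smul_eq_zero.1 h4 with h5 | h5
  · exact absurd h5 (mul_ne_zero ha hr)
  · exact h5

/-- the index of the image is divisible by `a ^ h + 1` -/
theorem idx_dvd (hh : 0 < h) (hγ : (γ ^ h) t = -t)
    (hind : LinearIndependent ℤ (fun j : Fin h => (γ ^ (j : ℕ)) t))
    (hfin : ∀ v : S, ∃ r : ℤ, r ≠ 0 ∧ r • v ∈ orb γ t h) (ha : a ^ h + 1 ≠ 0) :
    (a ^ h + 1).natAbs ∣ (LinearMap.range (γ - a • (1 : S →ₗ[ℤ] S))).toAddSubgroup.index := by
  classical
  set δ : S →ₗ[ℤ] S := γ - a • (1 : S →ₗ[ℤ] S) with hδ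
  have hinj : Function.Injective δ := sub_inj γ t h a hγ hfin ha
  set D := (a ^ h + 1).natAbs with hD
  have hD0 : NeZero D := ⟨Int.natAbs_ne_zero.2 ha⟩
  let S0 := orb γ t h
  let A0 : AddSubgroup S := S0.toAddSubgroup
  have hfi : A0.index ≠ 0 := by
    rw [AddSubgroup.index_ne_zero_iff_finite]
    have h1 : Finite (S ⧸ S0) := by
      apply Module.finite_of_fg_torsion
      intro x
      obtain ⟨v, rfl⟩ := Submodule.Quotient.mk_surjective S0 x
      obtain ⟨r, hr, hr2⟩ := hfin v
      refine ⟨⟨r, mem_nonZeroDivisors_of_ne_zero hr⟩, ?_⟩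
      have : (r • (Submodule.Quotient.mk v : S ⧸ S0)) = 0 := by
        rw [← Submodule.Quotient.mk_smul, Submodule.Quotient.mk_eq_zero]
        exact hr2
      exact this
    exact h1
  let f : S →+ S := δ.toAddMonoidHom
  have hfinj : Function.Injective f := hinj
  have hstab : A0.map f ≤ A0 := by
    rintro _ ⟨v, hv, rfl⟩
    have : δ v = γ v - a • v := rfl
    change δ v ∈ S0
    rw [this]
    exact Submodule.sub_mem _ (orb_stable γ t h hγ hv) (Submodule.smul_mem _ _ hv)
  have e1 : (A0.map f).relIndex A0 * A0.index = (A0.map f).index :=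
    AddSubgroup.relIndex_mul_index hstab
  have e2 : (A0.map f).relIndex ((⊤ : AddSubgroup S).map f) * ((⊤ : AddSubgroup S).map f).index =
      (A0.map f).index := AddSubgroup.relIndex_mul_index (AddSubgroup.map_mono le_top)
  have e3 : (A0.map f).relIndex ((⊤ : AddSubgroup S).map f) = A0.index := by
    rw [AddSubgroup.relIndex_map_map_of_injective _ _ hfinj, AddSubgroup.relIndex_top_right]
  have e4 : ((⊤ : AddSubgroup S).map f).index = (A0.map f).relIndex A0 := by
    rw [e3, ← e1, mul_comm] at e2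
    exact Nat.eq_of_mul_eq_mul_right (Nat.pos_of_ne_zero hfi) e2
  have e5 : (LinearMap.range δ).toAddSubgroup = (⊤ : AddSubgroup S).map f := by
    ext x
    constructor
    · rintro ⟨y, rfl⟩
      exact ⟨y, AddSubgroup.mem_top y, rfl⟩
    · rintro ⟨y, _, rfl⟩
      exact ⟨y, rfl⟩
  rw [e5, e4]
  -- the homomorphism to `ZMod D`
  let bS : Basis (Fin h) ℤ S0 := Basis.span hind
  have hbS : ∀ j, ((bS j : S0) : S) = (γ ^ (j : ℕ)) t := fun j =>
    congrArg Subtype.val (Basis.span_apply hind j)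
  let φ : S0 →ₗ[ℤ] ZMod D := bS.constr ℤ (fun j : Fin h => (a : ZMod D) ^ (j : ℕ))
  have hφ : ∀ j, φ (bS j) = (a : ZMod D) ^ (j : ℕ) := fun j => bS.constr_basis ℤ _ j
  let γ0 : S0 →ₗ[ℤ] S0 := γ.restrict fun v hv => orb_stable γ t h hγ hv
  have haD : (a : ZMod D) ^ h = -1 := by
    have h1 : ((a ^ h + 1 : ℤ) : ZMod D) = 0 := by
      rw [ZMod.intCast_zmod_eq_zero_iff_dvd, hD]; simp
    push_cast at h1
    exact eq_neg_of_add_eq_zero_left h1
  have hφγ : φ ∘ₗ γ0 = (a : ℤ) • φ := by
    refine bS.ext fun j => ?_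
    rw [LinearMap.comp_apply, LinearMap.smul_apply, hφ]
    by_cases hj : (j : ℕ) + 1 < h
    · have e6 : γ0 (bS j) = bS ⟨j + 1, hj⟩ := by
        apply Subtype.ext
        rw [hbS]
        change γ ((bS j : S0) : S) = _
        rw [hbS]
        show γ ((γ ^ (j : ℕ)) t) = (γ ^ ((j : ℕ) + 1)) t
        rw [pow_succ']
        rfl
      rw [e6, hφ]
      show (a : ZMod D) ^ ((j : ℕ) + 1) = a • (a : ZMod D) ^ (j : ℕ)
      rw [pow_succ', zsmul_eq_mul]
    · have hj' : (j : ℕ) + 1 = h := by omega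
      have e6 : γ0 (bS j) = -bS ⟨0, hh⟩ := by
        apply Subtype.ext
        rw [Submodule.coe_neg, hbS]
        change γ ((bS j : S0) : S) = _
        rw [hbS]
        have e7 : γ ((γ ^ (j : ℕ)) t) = (γ ^ ((j : ℕ) + 1)) t := by
          rw [pow_succ']
          rfl
        rw [e7, hj', hγ]
        simp
      rw [e6, map_neg, hφ, zsmul_eq_mul, ← pow_succ', hj', haD]
      simp
  have hsurj : Function.Surjective φ := by
    intro y
    refine ⟨(y.val : ℤ) • bS ⟨0, hh⟩, ?_⟩
    rw [map_smul, hφ]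
    simp
  have hker : (A0.map f).addSubgroupOf A0 ≤ φ.toAddMonoidHom.ker := by
    intro v hv
    rw [AddSubgroup.mem_addSubgroupOf] at hv
    obtain ⟨w, hw, hw2⟩ := hv
    have h1 : v = γ0 ⟨w, hw⟩ - a • ⟨w, hw⟩ := by
      apply Subtype.ext
      have : f w = γ w - a • w := rfl
      rw [← hw2, this]
      rfl
    rw [AddMonoidHom.mem_ker]
    change φ v = 0
    rw [h1, map_sub, map_smul]
    have h2 := congrArg (fun ψ : S0 →ₗ[ℤ] ZMod D => ψ ⟨w, hw⟩) hφγ
    simp only [LinearMap.comp_apply, LinearMap.smul_apply] at h2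
    rw [h2, sub_self]
  have hidx : φ.toAddMonoidHom.ker.index = D := by
    rw [AddSubgroup.index_ker]
    have : (φ.toAddMonoidHom.range : AddSubgroup (ZMod D)) = ⊤ :=
      AddMonoidHom.range_eq_top.2 hsurj
    rw [this, AddSubgroup.card_top, Nat.card_zmod]
  rw [← hidx]
  exact AddSubgroup.index_dvd_of_le hker

end idx

end Vale.Agent.P024.H377
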