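import Vale.Agent.P024.H377.LatA

set_option autoImplicit false

/-!
# P024, (T3), block LAT, part B : the abstract lattice theorem
-/

namespace Vale.Agent.P024.H377

open Module Finset

section free

variable {L : Type*} [AddCommGroup L] [Module.Free ℤ L] [Module.Finite ℤ L]
variable (γ : L →ₗ[ℤ] L) (s : L) (h : ℕ) (a : ℤ)

/-- the saturation of the lattice generated by the orbit -/
def sat : Submodule ℤ L where
  carrier := {v | ∃ r : ℤ, r ≠ 0 ∧ r • v ∈ orb γ s h}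
  add_mem' := by
    rintro v w ⟨r, hr, hv⟩ ⟨q, hq, hw⟩
    refine ⟨r * q, mul_ne_zero hr hq, ?_⟩
    rw [smul_add]
    refine Submodule.add_mem _ ?_ ?_
    · rw [mul_comm, ← smul_smul]
      exact Submodule.smul_mem _ _ hv
    · rw [← smul_smul]
      exact Submodule.smul_mem _ _ hw
  zero_mem' := ⟨1, one_ne_zero, by rw [smul_zero]; exact Submodule.zero_mem _⟩
  smul_mem' := by
    rintro c v ⟨r, hr, hv⟩
    refine ⟨r, hr, ?_⟩
    rw [smul_comm]
    exact Submodule.smul_mem _ _ hv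

theorem mem_sat {v : L} : v ∈ sat γ s h ↔ ∃ r : ℤ, r ≠ 0 ∧ r • v ∈ orb γ s h := Iff.rfl

theorem orb_le_sat : orb γ s h ≤ sat γ s h := fun v hv => ⟨1, one_ne_zero, by rwa [one_smul]⟩

theorem sat_of_smul {v : L} {r : ℤ} (hr : r ≠ 0) (hv : r • v ∈ sat γ s h) : v ∈ sat γ s h := by
  obtain ⟨q, hq, hq2⟩ := hv
  exact ⟨q * r, mul_ne_zero hq hr, by rwa [mul_smul]⟩

theorem sat_stable (hγ : (γ ^ h) s = -s) {v : L} (hv : v ∈ sat γ s h) : γ v ∈ sat γ s h := by
  obtain ⟨r, hr, hr2⟩ := hv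
  refine ⟨r, hr, ?_⟩
  rw [← map_smul]
  exact orb_stable γ s h hγ hr2

/-- version of `snf_elt` for the saturation -/
theorem sat_elt (hh : 0 < h) (hγ : (γ ^ h) s = -s)
    (hind : LinearIndependent ℤ (fun j : Fin h => (γ ^ (j : ℕ)) s))
    (ha : a ^ h + 1 ≠ 0) {p : ℕ} (hp : p.Prime) (n b : ℕ) (hpa : (p : ℤ) ^ n ∣ a ^ h + 1)
    (hb : ∀ (r : ℕ) (e : Fin r → L), (∀ i, e i ∈ sat γ s h) →
      (∀ i, ∃ z, γ (e i) = a • e i + (p : ℤ) • z) →
      (∀ κ : Fin r → ℤ, (∃ z, ∑ i, κ i • e i = (p : ℤ) • z) → ∀ i, (p : ℤ) ∣ κ i) → r ≤ b) :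
    ∃ k : ℕ, n ≤ b * k ∧ ∃ w : L, w ∈ sat γ s h ∧ (∃ z, γ w = a • w + (p : ℤ) ^ n • z) ∧
      ∀ B < k, ∀ z, (p : ℤ) ^ B • w ≠ (p : ℤ) ^ n • z := by
  classical
  have hp0 : (p : ℤ) ≠ 0 := by exact_mod_cast hp.ne_zero
  let S := sat γ s h
  let γS : S →ₗ[ℤ] S := γ.restrict fun v hv => sat_stable γ s h hγ hv
  have hγS : ∀ v : S, ((γS v : S) : L) = γ v := fun v => rfl
  have hγSk : ∀ (k : ℕ) (v : S), (((γS ^ k) v : S) : L) = (γ ^ k) v := by
    intro k
    induction k with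
    | zero => intro v; simp
    | succ k ih =>
      intro v
      rw [pow_succ', Module.End.mul_apply, hγS, ih, pow_succ', Module.End.mul_apply]
  have hs : s ∈ S := orb_le_sat γ s h (Submodule.subset_span ⟨⟨0, hh⟩, by simp⟩)
  let t : S := ⟨s, hs⟩
  have hγt : (γS ^ h) t = -t := by
    apply Subtype.ext
    rw [hγSk, Submodule.coe_neg]
    exact hγ
  have hindt : LinearIndependent ℤ (fun j : Fin h => (γS ^ (j : ℕ)) t) := by
    refine LinearIndependent.of_comp S.subtype ?_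
    have : (S.subtype ∘ fun j : Fin h => (γS ^ (j : ℕ)) t) = fun j : Fin h => (γ ^ (j : ℕ)) s := by
      funext j
      exact hγSk j t
    rw [this]
    exact hind
  have horb : (orb γS t h).map S.subtype = orb γ s h := by
    unfold orb
    rw [Submodule.map_span]
    congr 1
    ext v
    constructor
    · rintro ⟨_, ⟨j, rfl⟩, rfl⟩
      exact ⟨j, (hγSk j t).symm⟩
    · rintro ⟨j, rfl⟩
      exact ⟨_, ⟨j, rfl⟩, hγSk j t⟩
  have hfin : ∀ v : S, ∃ r : ℤ, r ≠ 0 ∧ r • v ∈ orb γS t h := by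
    intro v
    obtain ⟨r, hr, hr2⟩ := v.2
    refine ⟨r, hr, ?_⟩
    rw [← horb] at hr2
    obtain ⟨q, hq, hq2⟩ := hr2
    have : r • v = q := by
      apply Subtype.ext
      rw [Submodule.coe_smul]
      exact hq2.symm
    rw [this]
    exact hq
  have hdiv : ∀ (k : ℕ) (v : S) (z : L), (v : L) = (p : ℤ) ^ k • z → ∃ z' : S, v = (p : ℤ) ^ k • z' := by
    intro k v z hv
    have hz : z ∈ S := by
      refine sat_of_smul γ s h (pow_ne_zero k hp0) ?_
      rw [← hv]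
      exact v.2
    exact ⟨⟨z, hz⟩, Subtype.ext hv⟩
  let δ : S →ₗ[ℤ] S := γS - a • (1 : S →ₗ[ℤ] S)
  have hδ : ∀ v : S, δ v = γS v - a • v := fun v => rfl
  have hidx : p ^ n ∣ (LinearMap.range δ).toAddSubgroup.index := by
    refine Dvd.dvd.trans ?_ (idx_dvd γS t h a hh hγt hindt hfin ha)
    rw [← Int.natCast_dvd]
    push_cast
    exact hpa
  have hbS : ∀ (r : ℕ) (e : Fin r → S), (∀ i, ∃ z, δ (e i) = (p : ℤ) • z) →
      (∀ κ : Fin r → ℤ, (∃ z, ∑ i, κ i • e i = (p : ℤ) • z) → ∀ i, (p : ℤ) ∣ κ i) → r ≤ b := by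
    intro r e he hκ
    refine hb r (fun i => (e i : L)) (fun i => (e i).2) (fun i => ?_) (fun κ hz => ?_)
    · obtain ⟨z, hz⟩ := he i
      refine ⟨z, ?_⟩
      have h1 := congrArg Subtype.val hz
      have h2 : ((δ (e i) : S) : L) = γ (e i) - a • (e i : L) := rfl
      rw [h2] at h1
      rw [← sub_eq_iff_eq_add']
      exact h1
    · obtain ⟨z, hz⟩ := hz
      apply hκ
      obtain ⟨z', hz'⟩ := hdiv 1 (∑ i, κ i • e i) z (by
        rw [pow_one, ← hz]
        simp)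
      exact ⟨z', by rw [hz', pow_one]⟩
  obtain ⟨k, hk, w, ⟨z, hz⟩, hw⟩ := snf_elt δ (sub_inj γS t h a hγt hfin ha) hp n b hidx hbS
  refine ⟨k, hk, w, w.2, ⟨z, ?_⟩, ?_⟩
  · have h1 := congrArg Subtype.val hz
    have h2 : ((δ w : S) : L) = γ w - a • (w : L) := rfl
    rw [h2] at h1
    rw [← sub_eq_iff_eq_add']
    exact h1
  · intro B hB z' hz'
    obtain ⟨z'', hz''⟩ := hdiv n ((p : ℤ) ^ B • w) z' (by rw [Submodule.coe_smul]; exact hz')
    exact hw B hB z'' hz''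

end free

section main

variable {M : Type*} [AddCommGroup M] [Module.Finite ℤ M]

/-- integers prime to `p` act bijectively modulo `p ^ n` -/
theorem bez {p : ℕ} (hp : p.Prime) {m : ℤ} (hm : ¬ (p : ℤ) ∣ m) (n : ℕ) :
    ∃ α β : ℤ, α * m + β * (p : ℤ) ^ n = 1 := by
  have h1 : IsCoprime (p : ℤ) m := (Nat.prime_iff_prime_int.1 hp).coprime_iff_not_dvd.2 hm
  have h2 : IsCoprime m ((p : ℤ) ^ n) := (h1.pow_left).symm
  obtain ⟨α, β, hab⟩ := h2
  exact ⟨α, β, hab⟩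

/-- `1 - c` maps torsion elements to elements divisible by `p ^ n` -/
theorem tors_div {p : ℕ} (hp : p.Prime) (c : M →ₗ[ℤ] M)
    (htor : ∀ (v : M) (k : ℕ), (p : ℤ) ^ k • v = 0 → c v = v) (n : ℕ) {τ : M}
    (hτ : ∃ r : ℤ, r ≠ 0 ∧ r • τ = 0) : ∃ z, τ - c τ = (p : ℤ) ^ n • z := by
  obtain ⟨r, hr, hr2⟩ := hτ
  have hpp : Prime (p : ℤ) := Nat.prime_iff_prime_int.1 hp
  have hfin : FiniteMultiplicity (p : ℤ) r := by
    refine Int.finiteMultiplicity_iff.2 ⟨?_, hr⟩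
    rw [Int.natAbs_natCast]
    exact hp.one_lt.ne'
  obtain ⟨m, hm, hm2⟩ := hfin.exists_eq_pow_mul_and_not_dvd
  set k := multiplicity (p : ℤ) r
  have h1 : (p : ℤ) ^ k • (m • τ) = 0 := by rw [smul_smul, ← hm, hr2]
  have h2 := htor _ _ h1
  have h3 : m • (τ - c τ) = 0 := by
    rw [smul_sub, ← map_smul, h2, sub_self]
  obtain ⟨α, β, hab⟩ := bez hp hm2 n
  refine ⟨β • (τ - c τ), ?_⟩
  calc τ - c τ = (α * m + β * (p : ℤ) ^ n) • (τ - c τ) := by rw [hab, one_smul]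
    _ = α • (m • (τ - c τ)) + (p : ℤ) ^ n • (β • (τ - c τ)) := by
      rw [add_smul, mul_smul, mul_comm β, mul_smul]
    _ = (p : ℤ) ^ n • (β • (τ - c τ)) := by rw [h3, smul_zero, zero_add]

/-- torsion elements -/
def IsTors (v : M) : Prop := ∃ r : ℤ, r ≠ 0 ∧ r • v = 0

omit [Module.Finite ℤ M] in
theorem isTors_iff (v : M) : IsTors v ↔ v ∈ Submodule.torsion ℤ M := by
  rw [Submodule.mem_torsion_iff]
  constructor
  · rintro ⟨r, hr, hr2⟩
    exact ⟨⟨r, mem_nonZeroDivisors_of_ne_zero hr⟩, hr2⟩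
  · rintro ⟨r, hr⟩
    exact ⟨r, nonZeroDivisors.ne_zero r.2, hr⟩

omit [Module.Finite ℤ M] in
theorem isTors_map {v : M} (hv : IsTors v) (f : M →ₗ[ℤ] M) : IsTors (f v) := by
  obtain ⟨r, hr, hr2⟩ := hv
  exact ⟨r, hr, by rw [← map_smul, hr2, map_zero]⟩

/-- the abstract lattice theorem -/
theorem lat_abs {p : ℕ} (hp : p.Prime) (n b h : ℕ) (hh : 0 < h) (a : ℤ)
    (hpa : (p : ℤ) ^ n ∣ a ^ h + 1) (ha : a ^ h + 1 ≠ 0)
    (g x c y' : M →ₗ[ℤ] M) (hgx : ∀ v, g (x v) = x (g v)) (hgc : ∀ v, g (c v) = c (g v))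
    (hgy : ∀ v, g (y' v) = y' (g v)) (hcc : ∀ v, c (c v) = v)
    (m : ℤ) (hm : ¬ (p : ℤ) ∣ m)
    (hyy : ∀ v, x (y' (x (v - c v)) - c (y' (x (v - c v)))) = m • x (v - c v))
    (htor : ∀ (v : M) (k : ℕ), (p : ℤ) ^ k • v = 0 → c v = v)
    (ε : M) (hε : (g ^ h) ε = c ε)
    (hind : ∀ f : Fin h → ℤ, IsTors (∑ j, f j • (g ^ (j : ℕ)) (x (ε - c ε))) → ∀ j, f j = 0)
    (hb : ∀ (r : ℕ) (e : Fin r → M), (∀ i, ∃ z, g (e i) = a • e i + (p : ℤ) • z) →
      (∀ i, c (e i) = - e i) →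
      (∀ κ : Fin r → ℤ, (∃ z, ∑ i, κ i • e i = (p : ℤ) • z) → ∀ i, (p : ℤ) ∣ κ i) → r ≤ b) :
    ∃ k, n ≤ b * k ∧ ∃ u : M, (∃ z, g u = a • u + (p : ℤ) ^ n • z) ∧ c u = -u ∧
      ∀ B < k, ∀ z, (p : ℤ) ^ B • x u ≠ (p : ℤ) ^ n • z := by
  classical
  have hp0 : (p : ℤ) ≠ 0 := by exact_mod_cast hp.ne_zero
  let T := Submodule.torsion ℤ M
  let Λ := M ⧸ T
  let π : M →ₗ[ℤ] Λ := T.mkQ
  have hπ : ∀ v w : M, π v = π w ↔ IsTors (v - w) := by
    intro v w
    rw [isTors_iff]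
    exact Submodule.Quotient.eq T
  have hsurj : Function.Surjective π := Submodule.mkQ_surjective T
  have : Module.Finite ℤ Λ := inferInstance
  have : Module.Free ℤ Λ := inferInstance
  have hgT : T ≤ T.comap g := by
    intro v hv
    rw [Submodule.mem_comap]
    exact (isTors_iff _).1 (isTors_map ((isTors_iff _).2 hv) g)
  let γ : Λ →ₗ[ℤ] Λ := T.mapQ T g hgT
  have hγ : ∀ v, γ (π v) = π (g v) := fun v => rfl
  have hγk : ∀ (k : ℕ) v, (γ ^ k) (π v) = π ((g ^ k) v) := by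
    intro k
    induction k with
    | zero => intro v; rfl
    | succ k ih =>
      intro v
      rw [pow_succ', Module.End.mul_apply, ih, hγ, pow_succ', Module.End.mul_apply]
  have hgkx : ∀ (k : ℕ) v, (g ^ k) (x v) = x ((g ^ k) v) := by
    intro k
    induction k with
    | zero => intro v; rfl
    | succ k ih =>
      intro v
      rw [pow_succ', Module.End.mul_apply, ih, hgx, Module.End.mul_apply]
  have hgkc : ∀ (k : ℕ) v, (g ^ k) (c v) = c ((g ^ k) v) := by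
    intro k
    induction k with
    | zero => intro v; rfl
    | succ k ih =>
      intro v
      rw [pow_succ', Module.End.mul_apply, ih, hgc, Module.End.mul_apply]
  set s0 := x (ε - c ε) with hs0
  set s := π s0 with hs
  have hgs0 : (g ^ h) s0 = -s0 := by
    rw [hs0, hgkx, map_sub, hgkc, hε, hcc, ← map_neg, neg_sub]
  have hγs : (γ ^ h) s = -s := by
    rw [hs, hγk, hgs0, map_neg]
  have hli : LinearIndependent ℤ (fun j : Fin h => (γ ^ (j : ℕ)) s) := by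
    rw [Fintype.linearIndependent_iff]
    intro f hf
    apply hind
    have h1 : π (∑ j, f j • (g ^ (j : ℕ)) s0) = π 0 := by
      rw [map_zero, ← hf, map_sum]
      refine sum_congr rfl fun j _ => ?_
      rw [map_smul, hs, hγk]
    have h2 := (hπ _ _).1 h1
    rwa [sub_zero] at h2
  -- elements of the orbit
  have horb : ∀ v, v ∈ orb γ s h → ∃ w : M, v = π (x (w - c w)) := by
    intro v hv
    unfold orb at hv
    induction hv using Submodule.span_induction with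
    | mem v hv =>
      obtain ⟨j, rfl⟩ := hv
      refine ⟨(g ^ (j : ℕ)) ε, ?_⟩
      simp only [hs, hγk, hs0, hgkx, map_sub, hgkc]
    | zero => exact ⟨0, by simp⟩
    | add v w _ _ hv hw =>
      obtain ⟨v', rfl⟩ := hv
      obtain ⟨w', rfl⟩ := hw
      refine ⟨v' + w', ?_⟩
      simp only [map_sub, map_add]
      abel
    | smul r v _ hv =>
      obtain ⟨v', rfl⟩ := hv
      refine ⟨r • v', ?_⟩
      simp only [map_sub, map_smul, smul_sub]
  let U : M →ₗ[ℤ] M := y' - c ∘ₗ y'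
  have hU : ∀ v, U v = y' v - c (y' v) := fun v => rfl
  have hcU : ∀ v, c (U v) = -U v := by
    intro v
    rw [hU, map_sub, hcc, neg_sub]
  have hgU : ∀ v, g (U v) = U (g v) := by
    intro v
    rw [hU, hU, map_sub, hgc, hgy]
  have F2 : ∀ (k : ℕ) (v : M), (∃ z, γ (π v) = a • π v + (p : ℤ) ^ k • z) →
      ∃ z, g (U v) = a • U v + (p : ℤ) ^ k • z := by
    rintro k v ⟨z, hz⟩
    obtain ⟨z0, rfl⟩ := hsurj z
    have h1 : π (g v) = π (a • v + (p : ℤ) ^ k • z0) := by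
      rw [← hγ, hz, map_add, map_smul, map_smul]
    have h2 := (hπ _ _).1 h1
    obtain ⟨z1, hz1⟩ := tors_div hp c htor k (isTors_map h2 y')
    rw [← hU] at hz1
    refine ⟨U z0 + z1, ?_⟩
    rw [hgU, smul_add, ← hz1, map_sub, map_add, map_smul, map_smul]
    abel
  have F3 : ∀ v : M, π v ∈ sat γ s h → π (x (U v)) = m • π v := by
    rintro v ⟨r, hr, hr2⟩
    obtain ⟨w, hw⟩ := horb _ hr2
    rw [← map_smul, hπ] at hw
    have h1 : π (x (U (r • v - x (w - c w)))) = 0 := by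
      have h2 := isTors_map (isTors_map hw U) x
      rw [← map_zero π, hπ, sub_zero]
      exact h2
    have h3 : π (r • v) = π (x (w - c w)) := (hπ _ _).2 hw
    have h4 : x (U (x (w - c w))) = m • x (w - c w) := hyy w
    have h5 : π (x (U (r • v - x (w - c w)))) = r • π (x (U v)) - m • π (x (w - c w)) := by
      rw [map_sub, map_sub, map_sub, h4, map_smul, map_smul, map_smul, map_smul]
    rw [h5, ← h3, map_smul π, sub_eq_zero, smul_comm m r] at h1
    exact smul_right_injective Λ hr h1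
  obtain ⟨k, hk, w, hwS, hwg, hwB⟩ := sat_elt γ s h a hh hγs hli ha hp n b hpa (by
    intro r e he heg hκ
    choose e' he' using fun i => hsurj (e i)
    refine hb r (fun i => U (e' i)) (fun i => ?_) (fun i => hcU _) (fun κ hz i => ?_)
    · obtain ⟨z, hz⟩ := heg i
      obtain ⟨z', hz'⟩ := F2 1 (e' i) ⟨z, by rw [he', pow_one, hz]⟩
      exact ⟨z', by rw [hz', pow_one]⟩
    · obtain ⟨z, hz⟩ := hz
      have h1 : (p : ℤ) ∣ κ i * m := by
        refine hκ (fun i => κ i * m) ⟨π (x z), ?_⟩ i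
        rw [← map_smul, ← map_smul, ← hz, map_sum, map_sum]
        refine sum_congr rfl fun i _ => ?_
        rw [map_smul, map_smul, F3 _ (by rw [he']; exact he i), he', smul_smul]
      exact ((Nat.prime_iff_prime_int.1 hp).dvd_or_dvd h1).resolve_right hm)
  obtain ⟨w', rfl⟩ := hsurj w
  refine ⟨k, hk, U w', F2 n w' hwg, hcU _, ?_⟩
  intro B hB z hz
  obtain ⟨α, β, hab⟩ := bez hp hm n
  refine hwB B hB (α • π z + β • ((p : ℤ) ^ B • π w')) ?_
  have h1 : (p : ℤ) ^ B • (m • π w') = (p : ℤ) ^ n • π z := by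
    rw [← F3 _ hwS, ← map_smul, hz, map_smul]
  calc (p : ℤ) ^ B • π w' = (α * m + β * (p : ℤ) ^ n) • ((p : ℤ) ^ B • π w') := by
        rw [hab, one_smul]
    _ = α • ((p : ℤ) ^ B • (m • π w')) + (p : ℤ) ^ n • (β • ((p : ℤ) ^ B • π w')) := by
        simp only [smul_smul, ← add_smul]
        congr 1
        ring
    _ = _ := by rw [h1, smul_add, smul_comm α]

end main

end Vale.Agent.P024.H377
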