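import Vale.Agent.P024.H903.PropU
import Vale.Agent.P024.H903.LatU
import Vale.Agent.P024.Bdl.B1

set_option autoImplicit false

/-!
# P024, note 20992, Lemma R: the `l`-units of a Galois extension are generated, up to finite
index, by few elements as a Galois module
-/

namespace Vale.Agent.P024.H377

open NumberField InfinitePlace IsDedekindDomain Module
open Vale.Agent.P024.H903

theorem mem_clo {A I : Type*} [CommGroup A] [Fintype I] (b : I → A) {x : A}
    (hx : x ∈ Subgroup.closure (Set.range b)) : ∃ f : I → ℤ, x = ∏ i, b i ^ f i := by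
  classical
  induction hx using Subgroup.closure_induction with
  | mem x hx =>
    obtain ⟨i, rfl⟩ := hx
    refine ⟨Pi.single i 1, ?_⟩
    rw [Finset.prod_eq_single i]
    · rw [Pi.single_eq_same, zpow_one]
    · intro j _ hj
      rw [Pi.single_eq_of_ne hj, zpow_zero]
    · exact fun h => absurd (Finset.mem_univ _) h
  | one => exact ⟨0, by simp⟩
  | mul x y _ _ hx hy =>
    obtain ⟨f, rfl⟩ := hx
    obtain ⟨g, rfl⟩ := hy
    refine ⟨f + g, ?_⟩
    rw [← Finset.prod_mul_distrib]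
    exact Finset.prod_congr rfl fun i _ => (zpow_add _ _ _).symm
  | inv x _ hx =>
    obtain ⟨f, rfl⟩ := hx
    refine ⟨-f, ?_⟩
    rw [← Finset.prod_inv_distrib]
    exact Finset.prod_congr rfl fun i _ => (zpow_neg _ _).symm

variable {F L : Type*} [Field F] [NumberField F] [Field L] [NumberField L] [Algebra F L]

theorem unit_clo [IsGalois F L] : ∃ (e : InfinitePlace F → (𝓞 L)ˣ) (M : ℕ), 0 < M ∧
    ∀ u : (𝓞 L)ˣ, u ^ M ∈ Subgroup.closure
      (Set.range fun i : InfinitePlace F × (L ≃ₐ[F] L) => uact i.2 (e i.1)) := by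
  classical
  choose W hW using fun w : InfinitePlace F => InfinitePlace.comap_surjective (K := L) w
  choose e he using fun w : InfinitePlace F => Units.dirichletUnitTheorem.exists_unit L (W w)
  have hs : ∀ w' : InfinitePlace L, ∃ σ : L ≃ₐ[F] L, σ • W (w'.comap (algebraMap F L)) = w' :=
    fun w' => InfinitePlace.exists_smul_eq_of_comap_eq (hW _)
  choose s hs using hs
  let u : InfinitePlace L → (𝓞 L)ˣ := fun w' => uact (s w') (e (w'.comap (algebraMap F L)))
  have hu : ∀ w w' : InfinitePlace L, w' ≠ w → Real.log (w' ((u w : 𝓞 L) : L)) < 0 := by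
    intro w w' hww
    simp only [u]
    rw [log_uact]
    apply he
    intro h
    apply hww
    rw [← hs w, ← h, smul_inv_smul]
  have hfi := finite_index u hu
  refine ⟨e, (Subgroup.closure (Set.range u)).index, ?_, fun x => ?_⟩
  · exact Nat.pos_of_ne_zero hfi.index_ne_zero
  · have h1 : x ^ (Subgroup.closure (Set.range u)).index ∈ Subgroup.closure (Set.range u) :=
      Subgroup.pow_index_mem _ x
    refine Subgroup.closure_mono ?_ h1
    rintro _ ⟨w, rfl⟩
    exact ⟨(w.comap (algebraMap F L), s w), rfl⟩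

/-- `σ` on `Lˣ`. -/
noncomputable def xact (σ : L ≃ₐ[F] L) : Lˣ →* Lˣ := Units.map (σ : L →* L)

omit [NumberField F] [NumberField L] in
theorem xact_coe (σ : L ≃ₐ[F] L) (x : Lˣ) : ((xact σ x : Lˣ) : L) = σ (x : L) := rfl

omit [NumberField F] [NumberField L] in
theorem ui_uact (σ : L ≃ₐ[F] L) (x : (𝓞 L)ˣ) : ui L (uact σ x) = xact σ (ui L x) := by
  apply Units.ext
  rfl

omit [NumberField F] [NumberField L] in
theorem xact_mul (σ τ : L ≃ₐ[F] L) (x : Lˣ) : xact (σ * τ) x = xact σ (xact τ x) := by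
  apply Units.ext
  rfl

/-- elements without primes outside a finite set -/
theorem ind_clo (C : Subgroup Lˣ) {M : ℕ} (hM : 0 < M)
    (h0 : ∀ x : Lˣ, (∀ w : HeightOneSpectrum (𝓞 L), w.valuation L (x : L) = 1) → x ^ M ∈ C)
    (T : Finset (HeightOneSpectrum (𝓞 L)))
    (hT : ∀ w ∈ T, ∃ (h : ℕ) (ρ : Lˣ), 0 < h ∧ ρ ∈ C ∧
      w.valuation L (ρ : L) = WithZero.exp (-(h : ℤ)) ∧
      ∀ w' : HeightOneSpectrum (𝓞 L), w' ≠ w → w'.valuation L (ρ : L) = 1) :
    ∃ N : ℕ, 0 < N ∧ ∀ x : Lˣ,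
      (∀ w : HeightOneSpectrum (𝓞 L), w ∉ T → w.valuation L (x : L) = 1) → x ^ N ∈ C := by
  classical
  induction T using Finset.induction_on with
  | empty => exact ⟨M, hM, fun x hx => h0 x fun w => hx w (by simp)⟩
  | insert w T hw ih =>
    obtain ⟨N, hN, ih⟩ := ih fun w' hw' => hT w' (Finset.mem_insert_of_mem hw')
    obtain ⟨h, ρ, hh, hρ, hρw, hρw'⟩ := hT w (Finset.mem_insert_self w T)
    refine ⟨h * N, Nat.mul_pos hh hN, fun x hx => ?_⟩
    obtain ⟨k, hk⟩ : ∃ k : ℤ, vh w x = Multiplicative.ofAdd k := ⟨(vh w x).toAdd, rfl⟩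
    have hρv : vh w ρ = Multiplicative.ofAdd (-(h : ℤ)) := by
      show Multiplicative.ofAdd (WithZero.log (w.valuation L (ρ : L))) = _
      rw [hρw, WithZero.log_exp]
    have h1 := ih (x ^ h * ρ ^ k) (by
      intro w' hw'
      rw [← vh_eq_one, map_mul, map_pow, map_zpow]
      by_cases hww : w' = w
      · subst hww
        rw [hk, hρv, ← ofAdd_nsmul, ← ofAdd_zsmul, ← ofAdd_add]
        simp only [nsmul_eq_mul, smul_eq_mul]
        rw [show (h : ℤ) * k + k * -(h : ℤ) = 0 by ring]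
        rfl
      · rw [(vh_eq_one w' ρ).2 (hρw' w' hww), one_zpow, mul_one,
          (vh_eq_one w' x).2 (hx w' (by rw [Finset.mem_insert]; tauto)), one_pow])
    rw [mul_pow, ← pow_mul] at h1
    have h2 : (ρ ^ k) ^ N ∈ C := Subgroup.pow_mem _ (Subgroup.zpow_mem _ hρ _) _
    exact (Subgroup.mul_mem_cancel_right C h2).1 h1

theorem resChar_eq {v : HeightOneSpectrum (𝓞 F)} {l : ℕ} (hl : l.Prime)
    (h : (l : 𝓞 F) ∈ v.asIdeal) : resChar v = l := by
  have h1 : ringChar (𝓞 F ⧸ v.asIdeal) ∣ l := by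
    rw [← ringChar.spec]
    have h2 := Ideal.Quotient.eq_zero_iff_mem.2 h
    rw [← h2]
    simp
  have h2 : (ringChar (𝓞 F ⧸ v.asIdeal)).Prime := (resChar_spec v).1
  exact (Nat.prime_dvd_prime_iff_eq h2 hl).1 h1

theorem above_finite {l : ℕ} (hl : l.Prime) :
    ∃ A : Finset (HeightOneSpectrum (𝓞 F)), A.card ≤ finrank ℚ F ∧
      ∀ v : HeightOneSpectrum (𝓞 F), v ∈ A ↔ (l : 𝓞 F) ∈ v.asIdeal := by
  classical
  have hb : ∀ A : Finset (HeightOneSpectrum (𝓞 F)), (∀ v ∈ A, (l : 𝓞 F) ∈ v.asIdeal) →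
      A.card ≤ finrank ℚ F := by
    intro A hA
    rw [← RingOfIntegers.rank F]
    exact card_le_finrank hl A fun p hp => resChar_eq hl (hA p hp)
  have hfin : {v : HeightOneSpectrum (𝓞 F) | (l : 𝓞 F) ∈ v.asIdeal}.Finite := by
    by_contra hinf
    obtain ⟨A, hA, hAc⟩ := Set.Infinite.exists_subset_card_eq hinf (finrank ℚ F + 1)
    have := hb A fun v hv => hA hv
    omega
  exact ⟨hfin.toFinset, hb _ fun v hv => (hfin.mem_toFinset).1 hv, fun v => hfin.mem_toFinset⟩

/-- **Lemma R** -/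
theorem lemR [IsGalois F L] {l : ℕ} (hl : l.Prime) :
    ∃ (r : ℕ) (g : Fin r → Lˣ) (M : ℕ), r ≤ 2 * finrank ℚ F ∧ 0 < M ∧
      ∀ u : Lˣ, (∀ v : HeightOneSpectrum (𝓞 L), (l : 𝓞 L) ∉ v.asIdeal →
          v.valuation L (u : L) = 1) →
        ∃ f : Fin r × (L ≃ₐ[F] L) → ℤ, u ^ M = ∏ i, xact i.2 (g i.1) ^ f i := by
  classical
  obtain ⟨e, M₀, hM₀, he⟩ := unit_clo (F := F) (L := L)
  obtain ⟨A, hAc, hA⟩ := above_finite (F := F) hl
  obtain ⟨A', -, hA'⟩ := above_finite (F := L) hl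
  choose w₀ hw₀ using fun v : HeightOneSpectrum (𝓞 F) => exists_over (L := L) v
  choose h π hh hπ hπ1 hπ2 using fun v : HeightOneSpectrum (𝓞 F) => exists_gen (𝓞 L) (w₀ v)
  have hπ0 : ∀ v, (algebraMap (𝓞 L) L (π v)) ≠ 0 := fun v => by
    rw [Ne, FaithfulSMul.algebraMap_eq_zero_iff]
    exact hπ v
  let I := InfinitePlace F ⊕ A
  let g₀ : I → Lˣ := Sum.elim (fun w => ui L (e w)) (fun v => Units.mk0 _ (hπ0 v))
  let q : Fin (Fintype.card I) ≃ I := (Fintype.equivFin I).symm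
  let b : Fin (Fintype.card I) × (L ≃ₐ[F] L) → Lˣ := fun i => xact i.2 (g₀ (q i.1))
  set C := Subgroup.closure (Set.range b) with hC
  have hbC : ∀ (i : I) (σ : L ≃ₐ[F] L), xact σ (g₀ i) ∈ C := fun i σ =>
    Subgroup.subset_closure ⟨(q.symm i, σ), by simp only [b, Equiv.apply_symm_apply]⟩
  have h0 : ∀ x : Lˣ, (∀ w : HeightOneSpectrum (𝓞 L), w.valuation L (x : L) = 1) →
      x ^ M₀ ∈ C := by
    intro x hx
    obtain ⟨u, rfl⟩ := exists_ui x hx
    have h1 := he u
    have h2 : (Subgroup.closure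
        (Set.range fun i : InfinitePlace F × (L ≃ₐ[F] L) => uact i.2 (e i.1))).map (ui L) ≤ C := by
      rw [MonoidHom.map_closure, Subgroup.closure_le]
      rintro _ ⟨_, ⟨i, rfl⟩, rfl⟩
      simp only
      rw [ui_uact]
      exact hbC (Sum.inl i.1) i.2
    rw [← map_pow]
    exact h2 ⟨_, h1, rfl⟩
  obtain ⟨N, hN, hN2⟩ := ind_clo C hM₀ h0 A' (by
    intro w hw
    have hwl : (l : 𝓞 L) ∈ w.asIdeal := (hA' w).1 hw
    -- the prime of `F` below
    have : w.asIdeal.IsPrime := w.isPrime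
    have hub : w.asIdeal.under (𝓞 F) ≠ ⊥ := by
      intro hbot
      have h1 : (l : 𝓞 F) ∈ w.asIdeal.under (𝓞 F) := by
        rw [Ideal.under_def, Ideal.mem_comap, map_natCast]
        exact hwl
      rw [hbot, Ideal.mem_bot, Nat.cast_eq_zero] at h1
      exact hl.ne_zero h1
    let v : HeightOneSpectrum (𝓞 F) := ⟨w.asIdeal.under (𝓞 F), inferInstance, hub⟩
    have hv : v ∈ A := by
      rw [hA]
      show (l : 𝓞 F) ∈ w.asIdeal.under (𝓞 F)
      rw [Ideal.under_def, Ideal.mem_comap, map_natCast]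
      exact hwl
    obtain ⟨σ, hσ⟩ := exists_gp (F := F) w (w₀ v) (hw₀ v).symm
    refine ⟨h v, xact σ (g₀ (Sum.inr ⟨v, hv⟩)), hh v, hbC _ _, ?_, ?_⟩
    · rw [xact_coe, hσ, val_gp]
      show (w₀ v).valuation L (algebraMap (𝓞 L) L (π v)) = _
      rw [HeightOneSpectrum.valuation_of_algebraMap, hπ1]
    · intro w' hw'
      have h3 : w' = gp σ (gp σ⁻¹ w') := by
        rw [← gp_mul, mul_inv_cancel, gp_one]
      rw [xact_coe, h3, val_gp]
      show (gp σ⁻¹ w').valuation L (algebraMap (𝓞 L) L (π v)) = _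
      rw [HeightOneSpectrum.valuation_of_algebraMap]
      apply hπ2
      intro h4
      apply hw'
      rw [h3, h4, ← hσ])
  refine ⟨Fintype.card I, fun i => g₀ (q i), N, ?_, hN, fun u hu => ?_⟩
  · have h1 : Fintype.card I = Fintype.card (InfinitePlace F) + A.card := by
      rw [Fintype.card_sum, Fintype.card_coe]
    have h2 : Fintype.card (InfinitePlace F) ≤ finrank ℚ F := by
      have h3 := InfinitePlace.card_add_two_mul_card_eq_rank F
      have h4 : Fintype.card (InfinitePlace F) = InfinitePlace.nrRealPlaces F +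
          InfinitePlace.nrComplexPlaces F := InfinitePlace.card_eq_nrRealPlaces_add_nrComplexPlaces F
      omega
    omega
  · have h1 := hN2 u fun w hw => hu w fun h => hw ((hA' w).2 h)
    exact mem_clo b h1

end Vale.Agent.P024.H377
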