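import Vale.Agent.P024.H377.LemR
import Vale.Agent.P024.ALL.Spec

set_option autoImplicit false

/-!
# P024, note 20992, block (D1)
-/

namespace Vale.Agent.P024.H377

open NumberField InfinitePlace IsDedekindDomain Module
open Vale.Agent.P024.H903

/-- A nonzero element whose only prime is `y`, of exponent the class number. -/
theorem exists_gen_card (R : Type*) [CommRing R] [IsDedekindDomain R] [Fintype (ClassGroup R)]
    (y : HeightOneSpectrum R) :
    ∃ π : R, π ≠ 0 ∧ y.intValuation π = WithZero.exp (-(Fintype.card (ClassGroup R) : ℤ)) ∧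
      ∀ w : HeightOneSpectrum R, w ≠ y → w.intValuation π = 1 := by
  classical
  set h := Fintype.card (ClassGroup R) with hh
  have hh0 : 0 < h := Fintype.card_pos
  have hy0 : y.asIdeal ∈ nonZeroDivisors (Ideal R) := mem_nonZeroDivisors_of_ne_zero y.ne_bot
  have h1 : ClassGroup.mk0 (⟨y.asIdeal, hy0⟩ ^ h) = 1 := by
    rw [map_pow, hh, pow_card_eq_one]
  rw [ClassGroup.mk0_eq_one_iff] at h1
  obtain ⟨π, hπ⟩ := h1.principal
  have hπ' : y.asIdeal ^ h = Ideal.span {π} := hπ
  have hπ0 : π ≠ 0 := by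
    rintro rfl
    rw [Ideal.span_singleton_eq_bot.mpr rfl] at hπ'
    exact y.ne_bot (pow_eq_zero_iff hh0.ne' |>.mp hπ')
  refine ⟨π, hπ0, ?_, ?_⟩
  · rw [HeightOneSpectrum.intValuation_eq_exp_neg_multiplicity y hπ0, ← hπ',
      multiplicity_pow_self y.ne_bot y.irreducible.not_isUnit]
  · intro w hw
    rw [HeightOneSpectrum.intValuation_eq_exp_neg_multiplicity w hπ0, ← hπ']
    have h2 : ¬ w.asIdeal ∣ y.asIdeal ^ h := by
      intro hd
      have h3 := w.prime.dvd_of_dvd_pow hd
      apply hw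
      apply HeightOneSpectrum.ext
      rw [Ideal.dvd_iff_le] at h3
      exact ((y.isMaximal.eq_of_le w.isPrime.ne_top h3)).symm
    rw [multiplicity_eq_zero.mpr h2]
    simp

section cls

variable {L : Type*} [Field L] [NumberField L]

/-- the support of an element is finite -/
theorem supp_fin (x : Lˣ) :
    {V : HeightOneSpectrum (𝓞 L) | V.valuation L (x : L) ≠ 1}.Finite := by
  refine ((HeightOneSpectrum.Support.finite (𝓞 L) (x : L)).union
    (HeightOneSpectrum.Support.finite (𝓞 L) ((x⁻¹ : Lˣ) : L))).subset ?_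
  intro V hV
  rcases lt_or_gt_of_ne (show V.valuation L (x : L) ≠ 1 from hV) with h | h
  · right
    show 1 < V.valuation L ((x⁻¹ : Lˣ) : L)
    rw [Units.val_inv_eq_inv_val, map_inv₀]
    exact (one_lt_inv₀ (zero_lt_iff.mpr ((Valuation.ne_zero_iff _).mpr x.ne_zero))).2 h
  · left
    exact h

/-- killing the ideal classes -/
theorem cls_kill (l N : ℕ) (x : Lˣ)
    (hx : ∀ V : HeightOneSpectrum (𝓞 L), (l : 𝓞 L) ∉ V.asIdeal →
      ∃ j : ℤ, V.valuation L (x : L) = WithZero.exp ((N : ℤ) * j)) :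
    ∃ (β u : Lˣ), x ^ (Fintype.card (ClassGroup (𝓞 L))) = β ^ N * u ∧
      ∀ V : HeightOneSpectrum (𝓞 L), (l : 𝓞 L) ∉ V.asIdeal → V.valuation L (u : L) = 1 := by
  classical
  set h := Fintype.card (ClassGroup (𝓞 L)) with hh
  choose π hπ0 hπ1 hπ2 using fun V : HeightOneSpectrum (𝓞 L) => exists_gen_card (𝓞 L) V
  have hπ0' : ∀ v, (algebraMap (𝓞 L) L (π v)) ≠ 0 := fun v => by
    rw [Ne, FaithfulSMul.algebraMap_eq_zero_iff]
    exact hπ0 v
  let ρ : HeightOneSpectrum (𝓞 L) → Lˣ := fun V => Units.mk0 _ (hπ0' V)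
  have hρ1 : ∀ V, vh V (ρ V) = Multiplicative.ofAdd (-(h : ℤ)) := by
    intro V
    show Multiplicative.ofAdd (WithZero.log (V.valuation L (algebraMap (𝓞 L) L (π V)))) = _
    rw [HeightOneSpectrum.valuation_of_algebraMap, hπ1, WithZero.log_exp]
  have hρ2 : ∀ V W, V ≠ W → vh V (ρ W) = 1 := by
    intro V W hVW
    rw [vh_eq_one]
    show V.valuation L (algebraMap (𝓞 L) L (π W)) = 1
    rw [HeightOneSpectrum.valuation_of_algebraMap, hπ2 W V hVW]
  have hj : ∀ V : HeightOneSpectrum (𝓞 L), ∃ j : ℤ, ((l : 𝓞 L) ∉ V.asIdeal →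
      V.valuation L (x : L) = WithZero.exp ((N : ℤ) * j)) := by
    intro V
    by_cases hV : (l : 𝓞 L) ∉ V.asIdeal
    · obtain ⟨j, hj⟩ := hx V hV
      exact ⟨j, fun _ => hj⟩
    · exact ⟨0, fun h => absurd h hV⟩
  choose j hj using hj
  let T := (supp_fin x).toFinset
  have hT : ∀ V, V ∈ T ↔ V.valuation L (x : L) ≠ 1 := fun V => (supp_fin x).mem_toFinset
  let β : Lˣ := ∏ V ∈ T, (ρ V) ^ (-(j V))
  refine ⟨β, x ^ h / β ^ N, by rw [mul_div_cancel], fun V hV => ?_⟩
  rw [← vh_eq_one, map_div, map_pow, map_pow, div_eq_one]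
  have hxV : vh V x = Multiplicative.ofAdd ((N : ℤ) * j V) := by
    show Multiplicative.ofAdd (WithZero.log (V.valuation L (x : L))) = _
    rw [hj V hV, WithZero.log_exp]
  have hβV : vh V β ^ N = Multiplicative.ofAdd ((h : ℤ) * ((N : ℤ) * j V)) := by
    by_cases hVT : V ∈ T
    · have h1 : vh V β = Multiplicative.ofAdd ((h : ℤ) * j V) := by
        simp only [β]
        rw [map_prod, Finset.prod_eq_single V]
        · rw [map_zpow, hρ1, ← ofAdd_zsmul]
          congr 1
          rw [smul_eq_mul]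
          ring
        · intro W _ hW
          rw [map_zpow, hρ2 V W hW.symm, one_zpow]
        · exact fun h => absurd hVT h
      rw [h1, ← ofAdd_nsmul]
      congr 1
      rw [nsmul_eq_mul]
      ring
    · have h1 : vh V β = 1 := by
        simp only [β]
        rw [map_prod]
        refine Finset.prod_eq_one fun W hW => ?_
        have : V ≠ W := by
          rintro rfl
          exact hVT hW
        rw [map_zpow, hρ2 V W this, one_zpow]
      have h2 : vh V x = 1 := by
        rw [vh_eq_one]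
        by_contra h3
        exact hVT ((hT V).2 h3)
      have h3 : ((N : ℤ) * j V) = 0 := by
        rw [h2] at hxV
        exact (ofAdd_eq_one.1 hxV.symm)
      rw [h1, h3, one_pow, mul_zero, ofAdd_zero]
  rw [hβV, hxV, ← ofAdd_nsmul, nsmul_eq_mul]

end cls

end Vale.Agent.P024.H377
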